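import Claimed.Agent.R314.Defs

/-!
# Row 314, block T, package HT1 (architect helper258): trivial homotopy groups give sphere fillings

EXIT `fill_of_pi`.  All norms are sup norms (`Fin k → ℝ`, products).  Centred cubes: `closedBall 0 1`.

* `htPhi : (Fin k → ℝ) → (Fin k → ℝ) × ℝ` collapse map `Q = closedBall 0 1 → sphere 0 1` of `(Fin k → ℝ) × ℝ`:
  `ρ = ‖y‖ ≤ 1/3`: `(3 y, 1)` (top face); `1/3 ≤ ρ ≤ 2/3`: `(y/ρ, 3 - 6ρ)` (side faces); `2/3 ≤ ρ ≤ 1`: `((3 - 3ρ) y/ρ, -1)` (bottom face).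
  It is continuous, onto the unit sphere, collapses `ρ = 1` to `(0,-1)` and is injective elsewhere.
* `htXi (y,t) = (1 - t) • htPhi y` maps `Q × [0,1]` onto the closed unit ball; by `ht_descend` (compact to Hausdorff: quotient map) a continuous function on `Q × [0,1]` which is
  constant on the fibres of `htXi` descends.
* `htKap (w,s) = Fin.snoc ((w i + 1)/2) ((s+1)/2)` affine homeomorphism onto `Fin (k+1) → ℝ`: ball ↦ `cube (k+1)`, sphere ↦ `cbd (k+1)`.
* `f ∘ htKap ∘ htPhi ∘ (2 · - 1)` is a `GenLoop`, null homotopic rel boundary by hypothesis; the homotopy descends along `htXi`.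
-/

set_option autoImplicit false
open scoped ContDiff Topology unitInterval
open Set Metric

namespace Claimed.Agent.R314

/-- the collapse map (see the header). -/
noncomputable def htPhi {k : ℕ} (y : Fin k → ℝ) : (Fin k → ℝ) × ℝ :=
  if ‖y‖ ≤ 1 / 3 then ((3 : ℝ) • y, 1)
  else if ‖y‖ ≤ 2 / 3 then (‖y‖⁻¹ • y, 3 - 6 * ‖y‖)
  else ((‖y‖⁻¹ * (3 - 3 * ‖y‖)) • y, -1)

/-- **leaf HT1-A**: continuity (three closed pieces `‖y‖ ≤ 1/3`, `1/3 ≤ ‖y‖ ≤ 2/3`, `2/3 ≤ ‖y‖`, the formulas agree on the overlaps; `Continuous.if_le` twice;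
`‖y‖ ≠ 0` on the last two pieces). -/
theorem htPhi_continuous (k : ℕ) : Continuous (htPhi : (Fin k → ℝ) → (Fin k → ℝ) × ℝ) := by
  have hm : Continuous fun y : Fin k → ℝ => (max ‖y‖ (1 / 3))⁻¹ :=
    (continuous_norm.max continuous_const).inv₀
      (fun y => (lt_of_lt_of_le (by norm_num) (le_max_right _ _)).ne')
  have h2 : Continuous fun y : Fin k → ℝ =>
      if ‖y‖ ≤ 2 / 3 then ((max ‖y‖ (1 / 3))⁻¹ • y, 3 - 6 * ‖y‖)
      else (((max ‖y‖ (1 / 3))⁻¹ * (3 - 3 * ‖y‖)) • y, (-1 : ℝ)) := by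
    refine Continuous.if_le ?_ ?_ continuous_norm continuous_const ?_
    · exact (hm.smul continuous_id).prodMk (continuous_const.sub (continuous_const.mul continuous_norm))
    · exact ((hm.mul (continuous_const.sub (continuous_const.mul continuous_norm))).smul continuous_id).prodMk
        continuous_const
    · intro y hy
      rw [hy]
      norm_num
  have h1 : Continuous fun y : Fin k → ℝ =>
      if ‖y‖ ≤ 1 / 3 then ((3 : ℝ) • y, (1 : ℝ))
      else (if ‖y‖ ≤ 2 / 3 then ((max ‖y‖ (1 / 3))⁻¹ • y, 3 - 6 * ‖y‖)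
        else (((max ‖y‖ (1 / 3))⁻¹ * (3 - 3 * ‖y‖)) • y, (-1 : ℝ))) := by
    refine Continuous.if_le ?_ h2 continuous_norm continuous_const ?_
    · exact (continuous_id.const_smul (3 : ℝ)).prodMk continuous_const
    · intro y hy
      rw [hy]
      norm_num
  convert h1 using 1
  funext y
  unfold htPhi
  by_cases h : ‖y‖ ≤ 1 / 3
  · rw [if_pos h, if_pos h]
  · rw [if_neg h, if_neg h, max_eq_left (not_le.1 h).le]

/-- **leaf HT1-B1**: values on the unit sphere (`Prod.norm_def`, `norm_smul`, three cases). -/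
theorem htPhi_norm {k : ℕ} {y : Fin k → ℝ} (hy : ‖y‖ ≤ 1) : ‖htPhi y‖ = 1 := by
  unfold htPhi
  have h0 := norm_nonneg y
  split_ifs with h1 h2
  · rw [Prod.norm_def, norm_smul]
    simp only [Real.norm_eq_abs, abs_one]
    rw [abs_of_pos (by norm_num : (0 : ℝ) < 3)]
    exact max_eq_right (by linarith)
  · rw [not_le] at h1
    have hp : 0 < ‖y‖ := by linarith
    rw [Prod.norm_def, norm_smul, norm_inv, norm_norm, inv_mul_cancel₀ hp.ne']
    refine max_eq_left ?_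
    rw [Real.norm_eq_abs, abs_le]
    constructor <;> linarith
  · rw [not_le] at h1 h2
    have hp : 0 < ‖y‖ := by linarith
    rw [Prod.norm_def, norm_smul, norm_mul, norm_inv, norm_norm, norm_neg, norm_one,
      Real.norm_eq_abs, abs_of_nonneg (by linarith : 0 ≤ 3 - 3 * ‖y‖)]
    refine max_eq_right ?_
    have e : ‖y‖⁻¹ * (3 - 3 * ‖y‖) * ‖y‖ = 3 - 3 * ‖y‖ := by field_simp
    rw [e]
    linarith

theorem htPhi_boundary {k : ℕ} {y : Fin k → ℝ} (hy : ‖y‖ = 1) : htPhi y = (0, -1) := by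
  unfold htPhi
  rw [if_neg (by rw [hy]; norm_num), if_neg (by rw [hy]; norm_num), hy]
  simp

/-- **leaf HT1-B2**: onto the unit sphere.  `θ = (w,s)`, `max ‖w‖ |s| = 1`.  If `s = 1`: `y = w/3`.  Else if `‖w‖ = 1`: `y = ((3 - s)/6) • w`.
Else `s = -1`, `‖w‖ < 1`: if `w = 0` any `y` of norm one (needs `1 ≤ k`: `fun _ => 1`), otherwise `y = ((1 - ‖w‖/3)/‖w‖) • w`. -/
theorem htPhi_surj {k : ℕ} (hk : 1 ≤ k) {θ : (Fin k → ℝ) × ℝ} (hθ : ‖θ‖ = 1) :
    ∃ y : Fin k → ℝ, ‖y‖ ≤ 1 ∧ htPhi y = θ := by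
  obtain ⟨w, s⟩ := θ
  rw [Prod.norm_def] at hθ
  simp only at hθ
  have hw : ‖w‖ ≤ 1 := hθ ▸ le_max_left _ _
  have hs : |s| ≤ 1 := by
    have := le_max_right ‖w‖ ‖s‖
    rw [hθ, Real.norm_eq_abs] at this
    exact this
  obtain ⟨hs1, hs2⟩ := abs_le.1 hs
  by_cases h1 : s = 1
  · subst h1
    have hn : ‖(1 / 3 : ℝ) • w‖ ≤ 1 / 3 := by
      rw [norm_smul, Real.norm_eq_abs, abs_of_pos (by norm_num)]
      linarith
    refine ⟨(1 / 3 : ℝ) • w, hn.trans (by norm_num), ?_⟩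
    unfold htPhi
    rw [if_pos hn, smul_smul]
    norm_num
  by_cases h2 : ‖w‖ = 1
  · obtain ⟨ρ, hρ⟩ : ∃ ρ : ℝ, ρ = (3 - s) / 6 := ⟨_, rfl⟩
    have hs3 : s < 1 := lt_of_le_of_ne hs2 h1
    have hρ1 : 1 / 3 < ρ := by rw [hρ]; linarith
    have hρ2 : ρ ≤ 2 / 3 := by rw [hρ]; linarith
    have hρ0 : 0 < ρ := by linarith
    have hn : ‖ρ • w‖ = ρ := by rw [norm_smul, h2, mul_one, Real.norm_eq_abs, abs_of_pos hρ0]
    refine ⟨ρ • w, by rw [hn]; linarith, ?_⟩
    unfold htPhi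
    rw [hn, if_neg (not_le.2 hρ1), if_pos hρ2, smul_smul, inv_mul_cancel₀ hρ0.ne', one_smul]
    have : 3 - 6 * ρ = s := by rw [hρ]; ring
    rw [this]
  · have hw1 : ‖w‖ < 1 := lt_of_le_of_ne hw h2
    have hs' : s = -1 := by
      have h3 : ‖s‖ = 1 := by
        rcases max_choice ‖w‖ ‖s‖ with h | h
        · rw [h] at hθ
          exact absurd hθ h2
        · rw [h] at hθ
          exact hθ
      rw [Real.norm_eq_abs] at h3
      rcases (abs_eq (by norm_num : (0 : ℝ) ≤ 1)).1 h3 with h | h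
      · exact absurd h h1
      · exact h
    subst hs'
    by_cases h3 : w = 0
    · subst h3
      have hone : ‖(fun _ => 1 : Fin k → ℝ)‖ = 1 := by
        have : Nonempty (Fin k) := ⟨⟨0, hk⟩⟩
        simp [pi_norm_const]
      exact ⟨fun _ => 1, hone.le, htPhi_boundary hone⟩
    · have hw0 : 0 < ‖w‖ := norm_pos_iff.2 h3
      obtain ⟨ρ, hρ⟩ : ∃ ρ : ℝ, ρ = 1 - ‖w‖ / 3 := ⟨_, rfl⟩
      have hρ1 : 2 / 3 < ρ := by rw [hρ]; linarith
      have hρ2 : ρ ≤ 1 := by rw [hρ]; linarith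
      have hρ0 : 0 < ρ := by linarith
      have hn : ‖(ρ / ‖w‖) • w‖ = ρ := by
        rw [norm_smul, Real.norm_eq_abs, abs_of_pos (div_pos hρ0 hw0), div_mul_cancel₀ _ hw0.ne']
      refine ⟨(ρ / ‖w‖) • w, by rw [hn]; exact hρ2, ?_⟩
      unfold htPhi
      rw [hn, if_neg (not_le.2 (by linarith)), if_neg (not_le.2 hρ1), smul_smul]
      have : ρ⁻¹ * (3 - 3 * ρ) * (ρ / ‖w‖) = 1 := by
        have e : 3 - 3 * ρ = ‖w‖ := by rw [hρ]; ring
        rw [e]
        field_simp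
      rw [this, one_smul]

/-- auxiliary for HT1-B3: the three branches -/
theorem htPhi_branch {k : ℕ} (y : Fin k → ℝ) :
    (‖y‖ ≤ 1 / 3 ∧ htPhi y = ((3 : ℝ) • y, 1)) ∨ (1 / 3 < ‖y‖ ∧ ‖y‖ ≤ 2 / 3 ∧ htPhi y = (‖y‖⁻¹ • y, 3 - 6 * ‖y‖)) ∨
      (2 / 3 < ‖y‖ ∧ htPhi y = ((‖y‖⁻¹ * (3 - 3 * ‖y‖)) • y, -1)) := by
  unfold htPhi
  by_cases h1 : ‖y‖ ≤ 1 / 3
  · exact Or.inl ⟨h1, by rw [if_pos h1]⟩
  · by_cases h2 : ‖y‖ ≤ 2 / 3
    · exact Or.inr (Or.inl ⟨not_le.1 h1, h2, by rw [if_neg h1, if_pos h2]⟩)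
    · exact Or.inr (Or.inr ⟨not_le.1 h2, by rw [if_neg h1, if_neg h2]⟩)

/-- **leaf HT1-B3**: injective off the boundary.  The second component determines the case and, in the middle case, `ρ`; in the third case `‖first component‖ = 3 - 3ρ` determines `ρ`;
then `y` is recovered from the first component (the scalar factor is positive unless `ρ = 1`). -/
theorem htPhi_inj {k : ℕ} {y y' : Fin k → ℝ} (hy : ‖y‖ ≤ 1) (hy' : ‖y'‖ ≤ 1)
    (h : htPhi y = htPhi y') : y = y' ∨ (‖y‖ = 1 ∧ ‖y'‖ = 1) := by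
  -- norms of the first components
  have nB : ∀ z : Fin k → ℝ, 0 < ‖z‖ → ‖‖z‖⁻¹ • z‖ = 1 := by
    intro z hz
    rw [norm_smul, norm_inv, norm_norm, inv_mul_cancel₀ hz.ne']
  have nC : ∀ z : Fin k → ℝ, 0 < ‖z‖ → ‖z‖ ≤ 1 → ‖(‖z‖⁻¹ * (3 - 3 * ‖z‖)) • z‖ = 3 - 3 * ‖z‖ := by
    intro z hz hz1
    rw [norm_smul, Real.norm_eq_abs, abs_of_nonneg (mul_nonneg (inv_nonneg.2 hz.le) (by linarith))]
    field_simp
  rcases htPhi_branch y with ⟨a1, a2⟩ | ⟨a1, a1', a2⟩ | ⟨a1, a2⟩ <;>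
    rcases htPhi_branch y' with ⟨b1, b2⟩ | ⟨b1, b1', b2⟩ | ⟨b1, b2⟩ <;>
    rw [a2, b2, Prod.mk.injEq] at h <;> obtain ⟨e1, e2⟩ := h
  · exact Or.inl (smul_right_injective _ (by norm_num : (3 : ℝ) ≠ 0) e1)
  · exfalso; linarith
  · exfalso; linarith
  · exfalso; linarith
  · have hρ : ‖y‖ = ‖y'‖ := by linarith
    rw [← hρ] at e1
    exact Or.inl (smul_right_injective _ (inv_ne_zero (by linarith : ‖y‖ ≠ 0)) e1)
  · exfalso
    have h1 := nB y (by linarith)
    have h2 := nC y' (by linarith) hy'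
    rw [e1, h2] at h1
    linarith
  · exfalso; linarith
  · exfalso
    have h1 := nB y' (by linarith)
    have h2 := nC y (by linarith) hy
    rw [← e1, h2] at h1
    linarith
  · have h1 := nC y (by linarith) hy
    have h2 := nC y' (by linarith) hy'
    rw [e1, h2] at h1
    have hρ : ‖y‖ = ‖y'‖ := by linarith
    by_cases h3 : ‖y‖ = 1
    · exact Or.inr ⟨h3, hρ ▸ h3⟩
    · left
      rw [← hρ] at e1
      have hlt : ‖y‖ < 1 := lt_of_le_of_ne hy h3
      exact smul_right_injective _ (mul_ne_zero (inv_ne_zero (by linarith : ‖y‖ ≠ 0)) (by linarith : 3 - 3 * ‖y‖ ≠ 0)) e1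

/-- the cone over the collapse map. -/
noncomputable def htXi {k : ℕ} (p : (Fin k → ℝ) × ℝ) : (Fin k → ℝ) × ℝ := (1 - p.2) • htPhi p.1

theorem htXi_continuous (k : ℕ) : Continuous (htXi : (Fin k → ℝ) × ℝ → (Fin k → ℝ) × ℝ) :=
  (continuous_const.sub continuous_snd).smul ((htPhi_continuous k).comp continuous_fst)

/-- **leaf HT1-C**: the image of `Q × [0,1]` is the closed unit ball (`‖htXi (y,t)‖ = 1 - t`; conversely `z ≠ 0`: `t = 1 - ‖z‖`, `htPhi_surj` for `z/‖z‖`; `z = 0`: `t = 1`). -/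
theorem htXi_image {k : ℕ} (hk : 1 ≤ k) :
    htXi '' (closedBall (0 : Fin k → ℝ) 1 ×ˢ Icc (0 : ℝ) 1) = closedBall 0 1 := by
  apply Subset.antisymm
  · rintro _ ⟨⟨y, t⟩, ⟨hy, ht⟩, rfl⟩
    have hy1 := mem_closedBall_zero_iff.1 hy
    rw [mem_closedBall_zero_iff]
    simp only [htXi, norm_smul, htPhi_norm hy1, mul_one, Real.norm_eq_abs]
    rw [abs_of_nonneg (by linarith [ht.2])]
    linarith [ht.1]
  · intro z hz
    have hz1 := mem_closedBall_zero_iff.1 hz
    by_cases h0 : z = 0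
    · refine ⟨(0, 1), ⟨mem_closedBall_self zero_le_one, right_mem_Icc.2 zero_le_one⟩, ?_⟩
      simp [htXi, h0]
    · have hn : 0 < ‖z‖ := norm_pos_iff.2 h0
      obtain ⟨y, hy, hye⟩ := htPhi_surj hk (θ := ‖z‖⁻¹ • z) (by
        rw [norm_smul, norm_inv, norm_norm, inv_mul_cancel₀ hn.ne'])
      refine ⟨(y, 1 - ‖z‖), ⟨mem_closedBall_zero_iff.2 hy, ⟨by linarith, by linarith⟩⟩, ?_⟩
      simp only [htXi, hye, sub_sub_cancel]
      rw [smul_smul, mul_inv_cancel₀ hn.ne', one_smul]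

/-- the fibres of `htXi`. -/
theorem htXi_fibre {k : ℕ} {y y' : Fin k → ℝ} {t t' : ℝ} (hy : ‖y‖ ≤ 1) (hy' : ‖y'‖ ≤ 1)
    (ht : t ∈ Icc (0 : ℝ) 1) (ht' : t' ∈ Icc (0 : ℝ) 1) (h : htXi (y, t) = htXi (y', t')) :
    t = t' ∧ (t = 1 ∨ y = y' ∨ (‖y‖ = 1 ∧ ‖y'‖ = 1)) := by
  have h1 : ‖htXi (y, t)‖ = 1 - t := by
    simp only [htXi, norm_smul, htPhi_norm hy, mul_one, Real.norm_eq_abs]
    exact abs_of_nonneg (by linarith [ht.2])
  have h2 : ‖htXi (y', t')‖ = 1 - t' := by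
    simp only [htXi, norm_smul, htPhi_norm hy', mul_one, Real.norm_eq_abs]
    exact abs_of_nonneg (by linarith [ht'.2])
  have h3 : t = t' := by rw [h, h2] at h1; linarith
  subst h3
  refine ⟨rfl, ?_⟩
  by_cases h4 : t = 1
  · exact Or.inl h4
  · right
    have h5 : (1 - t) ≠ 0 := fun h6 => h4 (by linarith)
    exact htPhi_inj hy hy' (smul_right_injective _ h5 h)

/-- **leaf HT1-D** (general topology): a continuous function on a compact set which is constant on the fibres of a continuous map to a Hausdorff space descends to the image.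
PLAN: subtypes `K`, `Ξ '' K`; the restriction is a continuous surjection from a compact space to a `T2` space: closed map, hence `IsQuotientMap`;
`F b = h (a preimage)` (`Classical.choice` off the image); `IsQuotientMap.continuous_iff`; `continuousOn_iff_continuous_restrict`. -/
theorem ht_descend {A B Y : Type} [TopologicalSpace A] [TopologicalSpace B] [T2Space B]
    [TopologicalSpace Y] [Nonempty Y] {K : Set A} (hK : IsCompact K) {Ξ : A → B}
    (hΞ : ContinuousOn Ξ K) {h : A → Y} (hh : ContinuousOn h K)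
    (hfib : ∀ a ∈ K, ∀ a' ∈ K, Ξ a = Ξ a' → h a = h a') :
    ∃ F : B → Y, ContinuousOn F (Ξ '' K) ∧ ∀ a ∈ K, F (Ξ a) = h a := by
  classical
  let F : B → Y := fun b => if hb : ∃ a ∈ K, Ξ a = b then h hb.choose else Classical.arbitrary Y
  have hF : ∀ a ∈ K, F (Ξ a) = h a := by
    intro a ha
    have hb : ∃ a' ∈ K, Ξ a' = Ξ a := ⟨a, ha, rfl⟩
    simp only [F, dif_pos hb]
    exact hfib _ hb.choose_spec.1 _ ha hb.choose_spec.2
  refine ⟨F, ?_, hF⟩
  rw [continuousOn_iff_isClosed]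
  intro t ht
  obtain ⟨u', hu', hu'e⟩ := (continuousOn_iff_isClosed.1 hh) t ht
  have hc : IsCompact (u' ∩ K) := hK.inter_left hu'
  have hc2 : IsCompact (Ξ '' (u' ∩ K)) := hc.image_of_continuousOn (hΞ.mono inter_subset_right)
  refine ⟨Ξ '' (u' ∩ K), hc2.isClosed, ?_⟩
  ext b
  constructor
  · rintro ⟨hb1, a, ha, rfl⟩
    refine ⟨⟨a, ?_, rfl⟩, a, ha, rfl⟩
    rw [← hu'e]
    have hb2 : F (Ξ a) ∈ t := hb1
    rw [hF a ha] at hb2
    exact ⟨hb2, ha⟩
  · rintro ⟨⟨a, ha, rfl⟩, _⟩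
    rw [← hu'e] at ha
    refine ⟨?_, a, ha.2, rfl⟩
    show F (Ξ a) ∈ t
    rw [hF a ha.2]
    exact ha.1

/-- the affine identification of the centred cube with the standard cube. -/
noncomputable def htKap {k : ℕ} (p : (Fin k → ℝ) × ℝ) : Fin (k + 1) → ℝ :=
  Fin.snoc (α := fun _ => ℝ) (fun i => (p.1 i + 1) / 2) ((p.2 + 1) / 2)

/-- its inverse. -/
noncomputable def htKapInv {k : ℕ} (z : Fin (k + 1) → ℝ) : (Fin k → ℝ) × ℝ :=
  (fun i => 2 * z i.castSucc - 1, 2 * z (Fin.last k) - 1)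

theorem htKap_facts (k : ℕ) :
    Continuous (htKap : (Fin k → ℝ) × ℝ → Fin (k + 1) → ℝ) ∧
    Continuous (htKapInv : (Fin (k + 1) → ℝ) → (Fin k → ℝ) × ℝ) ∧
    (∀ z, htKap (htKapInv z : (Fin k → ℝ) × ℝ) = z) ∧
    (∀ z ∈ cube (k + 1), ‖(htKapInv z : (Fin k → ℝ) × ℝ)‖ ≤ 1) ∧
    (∀ z ∈ cbd (k + 1), ‖(htKapInv z : (Fin k → ℝ) × ℝ)‖ = 1) ∧
    (∀ p : (Fin k → ℝ) × ℝ, ‖p‖ = 1 → htKap p ∈ cbd (k + 1)) := by
  have hle : ∀ z ∈ cube (k + 1), ‖(htKapInv z : (Fin k → ℝ) × ℝ)‖ ≤ 1 := by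
    intro z hz
    have h0 : ∀ i, 0 ≤ z i := fun i => hz.1 i
    have h1 : ∀ i, z i ≤ 1 := fun i => hz.2 i
    rw [Prod.norm_def]
    refine max_le ?_ ?_
    · rw [pi_norm_le_iff_of_nonneg zero_le_one]
      intro i
      rw [Real.norm_eq_abs, abs_le]
      simp only [htKapInv]
      constructor <;> linarith [h0 i.castSucc, h1 i.castSucc]
    · rw [Real.norm_eq_abs, abs_le]
      simp only [htKapInv]
      constructor <;> linarith [h0 (Fin.last k), h1 (Fin.last k)]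
  refine ⟨?_, ?_, ?_, hle, ?_, ?_⟩
  · refine continuous_pi fun i => ?_
    refine Fin.lastCases ?_ (fun j => ?_) i
    · simp only [htKap, Fin.snoc_last]
      fun_prop
    · simp only [htKap, Fin.snoc_castSucc]
      fun_prop
  · unfold htKapInv
    fun_prop
  · intro z
    funext i
    refine Fin.lastCases ?_ (fun j => ?_) i
    · simp only [htKap, htKapInv, Fin.snoc_last]
      ring
    · simp only [htKap, htKapInv, Fin.snoc_castSucc]
      ring
  · intro z hz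
    refine le_antisymm (hle z hz.1) ?_
    obtain ⟨i, hi⟩ := hz.2
    rw [Prod.norm_def]
    revert hi
    refine Fin.lastCases ?_ (fun j => ?_) i
    · intro hi
      refine le_trans ?_ (le_max_right _ _)
      simp only [htKapInv]
      rcases hi with hi | hi <;> rw [hi] <;> norm_num
    · intro hi
      refine le_trans ?_ (le_max_left _ _)
      refine le_trans ?_ (norm_le_pi_norm _ j)
      simp only [htKapInv]
      rcases hi with hi | hi <;> rw [hi] <;> norm_num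
  · intro p hp
    have h1 : ‖p.1‖ ≤ 1 := by rw [← hp, Prod.norm_def]; exact le_max_left _ _
    have h2 : ‖p.2‖ ≤ 1 := by rw [← hp, Prod.norm_def]; exact le_max_right _ _
    have h3 : ∀ i, |p.1 i| ≤ 1 := fun i => by
      have := (norm_le_pi_norm p.1 i).trans h1
      rwa [Real.norm_eq_abs] at this
    rw [Real.norm_eq_abs] at h2
    refine ⟨⟨fun i => ?_, fun i => ?_⟩, ?_⟩
    · refine Fin.lastCases ?_ (fun j => ?_) i
      · simp only [htKap, Fin.snoc_last, Pi.zero_apply]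
        linarith [(abs_le.1 h2).1]
      · simp only [htKap, Fin.snoc_castSucc, Pi.zero_apply]
        linarith [(abs_le.1 (h3 j)).1]
    · refine Fin.lastCases ?_ (fun j => ?_) i
      · simp only [htKap, Fin.snoc_last, Pi.one_apply]
        linarith [(abs_le.1 h2).2]
      · simp only [htKap, Fin.snoc_castSucc, Pi.one_apply]
        linarith [(abs_le.1 (h3 j)).2]
    · -- some coordinate has absolute value one
      by_cases h4 : |p.2| = 1
      · refine ⟨Fin.last k, ?_⟩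
        simp only [htKap, Fin.snoc_last]
        rcases abs_eq (zero_le_one) |>.1 h4 with h5 | h5
        · right; rw [h5]; norm_num
        · left; rw [h5]; norm_num
      · have h5 : |p.2| < 1 := lt_of_le_of_ne h2 h4
        have h6 : ‖p.1‖ = 1 := by
          rw [Prod.norm_def, Real.norm_eq_abs] at hp
          rcases max_choice ‖p.1‖ |p.2| with h7 | h7
          · rw [h7] at hp; exact hp
          · rw [h7] at hp; exact absurd hp h4
        have h7 : ∃ j, |p.1 j| = 1 := by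
          by_contra hcon
          push Not at hcon
          have h8 : ∀ j, |p.1 j| < 1 := fun j => lt_of_le_of_ne (h3 j) (hcon j)
          have h9 : ‖p.1‖ < 1 := by
            rw [pi_norm_lt_iff zero_lt_one]
            intro j
            rw [Real.norm_eq_abs]
            exact h8 j
          linarith
        obtain ⟨j, hj⟩ := h7
        refine ⟨j.castSucc, ?_⟩
        simp only [htKap, Fin.snoc_castSucc]
        rcases abs_eq (zero_le_one) |>.1 hj with h5 | h5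
        · right; rw [h5]; norm_num
        · left; rw [h5]; norm_num

/-- **leaf HT1-F**: the null homotopy in ambient form.  `q : Q → S` continuous (as an ambient function on `closedBall 0 1`), constant `= x` on the unit sphere.
Then there is `h` on `Q × [0,1]` with `h (y,0) = q y`, `h (y,1) = x`, `h (y,t) = x` for `‖y‖ = 1`.
PLAN: `p : C(I^ Fin k, S)`, `p y' = ⟨q (fun i => 2 * y' i - 1), _⟩` is in `GenLoop (Fin k) S ⟨x,_⟩` (`y' ∈ Cube.boundary` gives `‖2 y' - 1‖ = 1`);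
`Subsingleton` + `Quotient.exact` give `GenLoop.Homotopic p const`, i.e. a `ContinuousMap.HomotopyRel H`; `h (y,t) = H (projIcc t, fun i => projIcc ((y i + 1)/2))`
(`ContinuousMap.HomotopyRel.eq_fst`, `H.apply_zero`, `H.apply_one`, `continuous_projIcc`). -/
theorem ht_null {Y : Type} [TopologicalSpace Y] (S : Set Y) (k : ℕ)
    (hS : ∀ x : S, Subsingleton (π_ k S x)) {q : (Fin k → ℝ) → Y} {x : Y}
    (hq : ContinuousOn q (closedBall 0 1)) (hm : MapsTo q (closedBall 0 1) S)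
    (hb : ∀ y, ‖y‖ = 1 → q y = x) (hx : x ∈ S) :
    ∃ h : (Fin k → ℝ) × ℝ → Y, ContinuousOn h (closedBall 0 1 ×ˢ Icc (0 : ℝ) 1) ∧
      MapsTo h (closedBall 0 1 ×ˢ Icc (0 : ℝ) 1) S ∧ (∀ y, ‖y‖ ≤ 1 → h (y, 0) = q y) ∧
      (∀ y, ‖y‖ ≤ 1 → h (y, 1) = x) ∧ ∀ y, ‖y‖ = 1 → ∀ t ∈ Icc (0 : ℝ) 1, h (y, t) = x := by
  -- the affine change of variables
  set c : (Fin k → I) → (Fin k → ℝ) := fun y' i => 2 * (y' i : ℝ) - 1 with hc
  have hcc : Continuous c := by
    refine continuous_pi fun i => ?_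
    exact (continuous_const.mul (continuous_subtype_val.comp (continuous_apply i))).sub continuous_const
  have hcn : ∀ y', ‖c y'‖ ≤ 1 := by
    intro y'
    rw [pi_norm_le_iff_of_nonneg zero_le_one]
    intro i
    rw [Real.norm_eq_abs, abs_le]
    have h0 := (y' i).2.1
    have h1 := (y' i).2.2
    constructor <;> simp only [hc] <;> linarith
  have hcm : ∀ y', c y' ∈ closedBall (0 : Fin k → ℝ) 1 := fun y' => mem_closedBall_zero_iff.2 (hcn y')
  have hcb : ∀ y' ∈ Cube.boundary (Fin k), ‖c y'‖ = 1 := by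
    rintro y' ⟨i, hi⟩
    refine le_antisymm (hcn y') ?_
    have h1 : ‖c y' i‖ = 1 := by
      rcases hi with hi | hi <;> simp [hc, hi]
      norm_num
    rw [← h1]
    exact norm_le_pi_norm (c y') i
  let x' : S := ⟨x, hx⟩
  let p0 : C(I^ Fin k, S) := ⟨fun y' => ⟨q (c y'), hm (hcm y')⟩,
    Continuous.subtype_mk (hq.comp_continuous hcc hcm) _⟩
  have hp0 : p0 ∈ GenLoop (Fin k) S x' := fun y' hy' => Subtype.ext (hb _ (hcb y' hy'))
  let p : GenLoop (Fin k) S x' := ⟨p0, hp0⟩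
  have hhom : GenLoop.Homotopic p GenLoop.const := by
    have hsub : ∀ a b : π_ k S x', a = b := fun a b => (hS x').elim a b
    exact Quotient.exact (hsub (Quotient.mk _ p) (Quotient.mk _ GenLoop.const))
  obtain ⟨H⟩ := hhom
  -- back to the ambient coordinates
  set e : (Fin k → ℝ) → (Fin k → I) := fun y i => projIcc (0 : ℝ) 1 zero_le_one ((y i + 1) / 2) with he
  have hec : Continuous e := by
    refine continuous_pi fun i => ?_
    exact continuous_projIcc.comp (((continuous_apply i).add continuous_const).div_const 2)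
  have hmem : ∀ y : Fin k → ℝ, ‖y‖ ≤ 1 → ∀ i, (y i + 1) / 2 ∈ Icc (0 : ℝ) 1 := by
    intro y hy i
    have h1 := (norm_le_pi_norm y i).trans hy
    rw [Real.norm_eq_abs, abs_le] at h1
    constructor <;> linarith [h1.1, h1.2]
  have hce : ∀ y : Fin k → ℝ, ‖y‖ ≤ 1 → c (e y) = y := by
    intro y hy
    funext i
    simp only [hc, he]
    rw [projIcc_of_mem zero_le_one (hmem y hy i)]
    ring
  have heb : ∀ y : Fin k → ℝ, ‖y‖ = 1 → e y ∈ Cube.boundary (Fin k) := by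
    intro y hy
    have h1 : ¬ ∀ i, ‖y i‖ < 1 := fun h => by
      have := (pi_norm_lt_iff zero_lt_one).2 h
      rw [hy] at this
      exact lt_irrefl _ this
    push Not at h1
    obtain ⟨i, hi⟩ := h1
    have h2 : ‖y i‖ = 1 := le_antisymm ((norm_le_pi_norm y i).trans hy.le) hi
    rw [Real.norm_eq_abs] at h2
    refine ⟨i, ?_⟩
    rcases abs_eq zero_le_one |>.1 h2 with h3 | h3
    · right
      apply Subtype.ext
      simp only [he]
      rw [projIcc_of_mem zero_le_one (hmem y hy.le i)]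
      show (y i + 1) / 2 = 1
      rw [h3]
      norm_num
    · left
      apply Subtype.ext
      simp only [he]
      rw [projIcc_of_mem zero_le_one (hmem y hy.le i)]
      show (y i + 1) / 2 = 0
      rw [h3]
      norm_num
  refine ⟨fun z => (H (projIcc (0 : ℝ) 1 zero_le_one z.2, e z.1) : Y), ?_, ?_, ?_, ?_, ?_⟩
  · refine Continuous.continuousOn ?_
    exact continuous_subtype_val.comp
      (H.continuous.comp ((continuous_projIcc.comp continuous_snd).prodMk (hec.comp continuous_fst)))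
  · intro z _
    exact (H (projIcc (0 : ℝ) 1 zero_le_one z.2, e z.1)).2
  · intro y hy
    show ((H (projIcc (0 : ℝ) 1 zero_le_one 0, e y) : S) : Y) = q y
    rw [projIcc_left]
    have h1 : H ((0 : I), e y) = p0 (e y) := H.apply_zero (e y)
    have h0 : (⟨0, left_mem_Icc.2 zero_le_one⟩ : Icc (0 : ℝ) 1) = (0 : I) := rfl
    rw [h0, h1]
    show q (c (e y)) = q y
    rw [hce y hy]
  · intro y _
    show ((H (projIcc (0 : ℝ) 1 zero_le_one 1, e y) : S) : Y) = x
    rw [projIcc_right]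
    have h1 : H ((1 : I), e y) = (GenLoop.const : GenLoop (Fin k) S x').1 (e y) := H.apply_one (e y)
    have h0 : (⟨1, right_mem_Icc.2 zero_le_one⟩ : Icc (0 : ℝ) 1) = (1 : I) := rfl
    rw [h0, h1]
    rfl
  · intro y hy t _
    show ((H (projIcc (0 : ℝ) 1 zero_le_one t, e y) : S) : Y) = x
    rw [H.eq_fst _ (heb y hy)]
    exact congrArg Subtype.val (hp0 _ (heb y hy))

theorem fill_of_pi {Y : Type} [TopologicalSpace Y] (S : Set Y) (k : ℕ) (hk : 1 ≤ k)
    (h : ∀ x : S, Subsingleton (π_ k S x)) : Fill (k + 1) S := by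
  intro f hf hfm
  obtain ⟨K1, K2, K3, K4, K5, K6⟩ := htKap_facts k
  -- the loop
  have hΦs : ∀ y : Fin k → ℝ, ‖y‖ ≤ 1 → htKap (htPhi y) ∈ cbd (k + 1) := fun y hy =>
    K6 _ (htPhi_norm hy)
  have hq : ContinuousOn (fun y : Fin k → ℝ => f (htKap (htPhi y))) (closedBall 0 1) :=
    hf.comp (K1.comp (htPhi_continuous k)).continuousOn
      fun y hy => hΦs y (mem_closedBall_zero_iff.1 hy)
  have hqm : MapsTo (fun y : Fin k → ℝ => f (htKap (htPhi y))) (closedBall 0 1) S :=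
    fun y hy => hfm (hΦs y (mem_closedBall_zero_iff.1 hy))
  have hone : ‖(fun _ => 1 : Fin k → ℝ)‖ = 1 := by
    have : Nonempty (Fin k) := ⟨⟨0, hk⟩⟩
    simp [pi_norm_const]
  have hx : f (htKap ((0 : Fin k → ℝ), (-1 : ℝ))) ∈ S := by
    have := hqm (x := fun _ => 1) (mem_closedBall_zero_iff.2 hone.le)
    simpa only [htPhi_boundary hone] using this
  obtain ⟨H, H1, H2, H3, H4, H5⟩ := ht_null S k h hq hqm
    (fun y hy => by simp only [htPhi_boundary hy]) hx
  have : Nonempty Y := ⟨f (htKap ((0 : Fin k → ℝ), (-1 : ℝ)))⟩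
  -- descent
  have hKc : IsCompact (closedBall (0 : Fin k → ℝ) 1 ×ˢ Icc (0 : ℝ) 1) :=
    (isCompact_closedBall 0 1).prod isCompact_Icc
  obtain ⟨F, F1, F2⟩ := ht_descend hKc (htXi_continuous k).continuousOn H1 (by
    rintro ⟨y, t⟩ ⟨hy, ht⟩ ⟨y', t'⟩ ⟨hy', ht'⟩ he
    have hy1 := mem_closedBall_zero_iff.1 hy
    have hy1' := mem_closedBall_zero_iff.1 hy'
    obtain ⟨rfl, h6⟩ := htXi_fibre hy1 hy1' ht ht' he
    rcases h6 with rfl | rfl | ⟨h7, h8⟩
    · rw [H4 y hy1, H4 y' hy1']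
    · rfl
    · rw [H5 y h7 t ht, H5 y' h8 t ht])
  rw [htXi_image hk] at F1
  refine ⟨F ∘ htKapInv, F1.comp K2.continuousOn fun z hz => mem_closedBall_zero_iff.2 (K4 z hz),
    fun z hz => ?_, fun z hz => ?_⟩
  · have hz' : (htKapInv z : (Fin k → ℝ) × ℝ) ∈ closedBall 0 1 :=
      mem_closedBall_zero_iff.2 (K4 z hz)
    rw [← htXi_image hk] at hz'
    obtain ⟨a, ha, hae⟩ := hz'
    rw [Function.comp_apply, ← hae, F2 a ha]
    exact H2 ha
  · obtain ⟨y, hy, hye⟩ := htPhi_surj hk (K5 z hz)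
    have h9 : htXi (y, (0 : ℝ)) = htKapInv z := by simp [htXi, hye]
    rw [Function.comp_apply, ← h9,
      F2 (y, 0) ⟨mem_closedBall_zero_iff.2 hy, left_mem_Icc.2 zero_le_one⟩, H3 y hy, hye, K3]

end Claimed.Agent.R314
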