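import Claimed.Agent.R314.T.Bridge

/-!
# Row 314, block T (chief helper129): the topological half of (A)

EXIT CONTRACTS `no_cover`, `surj_of_bdd`, PROVED here from the packages
HT2 (`T/Contr.lean` ⟸ EXT `T/Ext.lean` ⟸ GE `GE/Grid.lean`), TUB (`T/Tub.lean`), DG (`T/Dg.lean`), CONE (`T/Abs*.lean` for the homotopy on compact sets,
`T/Cone.lean` for the factorisation through cubes), NV (`T/NV.lean`), instantiated at `Y = ↥X`, `d = rdist X g` in `T/Bridge.lean`.
-/

set_option autoImplicit false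
open scoped ContDiff Topology
open Set Claims.C0499 Claimed.Agent.R315

namespace Claimed.Agent.R314

/-- **Theorem T**: a uniformly contractible cocompact `n`-manifold has no open cover of multiplicity `≤ n` by sets of bounded diameter. -/
theorem no_cover {n N : ℕ} {X : Set (E N)} {g : Ten (E N)} (h : UCont n X g) (C : ℝ) :
    ¬ HasCover n X g C := by
  rintro ⟨ι, U, h1, h2, h3, h4, h5⟩
  obtain ⟨x0, hx0⟩ := h.conn.nonempty
  obtain ⟨ψ, W, hp, u0, hu0, -⟩ := h.mfd x0 hx0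
  obtain ⟨Φ, hΦ, -⟩ := nv_chart hp ⟨x0, hx0⟩
  obtain ⟨κ, e, hκ⟩ := abs_cfam (tb_auc h)
  obtain ⟨Φc, hu⟩ := hκ.uctr
  exact nv_no_bcov (tb_pdist h).isPD hu (tb_bcov h1 h2 h3 h4 h5) Φ (hΦ ▸ ⟨u0, hu0⟩) (tb_hsurj h)

/-- **T-core**: a continuous self map at bounded distance from the identity is onto. -/
theorem surj_of_bdd {n N : ℕ} {X : Set (E N)} {g : Ten (E N)} (h : UCont n X g) {G : E N → E N}
    (hG : ContinuousOn G X) (hm : MapsTo G X X) {C : ℝ} (hd : ∀ x ∈ X, rdist X g x (G x) ≤ C) :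
    SurjOn G X X := by
  intro q hq
  have hc : Continuous fun a : X => (⟨G a, hm a.2⟩ : X) :=
    Continuous.subtype_mk (continuousOn_iff_continuous_domRestrict.1 hG) _
  obtain ⟨x, hx⟩ := tb_hsurj h _ hc ⟨C, fun y => hd y y.2⟩ ⟨q, hq⟩
  exact ⟨x, x.2, congrArg Subtype.val hx⟩

end Claimed.Agent.R314
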