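import Claimed.Agent.R314.T.AbsDefs

/-!
# Row 314, block T, package CONE (chief helper129): properties of the iterated coning `tcone`

Leaves `T-CONE-1 .. T-CONE-5`.  Pure topology, `Mathlib` only.
-/

set_option autoImplicit false
open Set Topology

namespace Claimed.Agent.R314

variable {Y ι : Type}

/-- the coning parameter lies in `[0,1]`. -/
theorem tcone_par_mem {a b : ℝ} (ha : 0 ≤ a) (hb : 0 ≤ b) : a / (a + b) ∈ Icc (0 : ℝ) 1 := by
  refine ⟨by positivity, div_le_one_of_le₀ (by linarith) (by positivity)⟩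

theorem tcone_sum_nonneg {t : ι → ℝ} (ht : ∀ i, 0 ≤ t i) (l : List ι) : 0 ≤ (l.map t).sum :=
  List.sum_nonneg (by simpa using fun i _ => ht i)

/-- **T-CONE-1**: an index of weight zero drops out.  (`0 / _ = 0`, `h0`.) -/
theorem tcone_cons_zero {κ : ι → Y × ℝ → Y} (h0 : ∀ i z, κ i (z, 0) = z) {i : ι} (l : List ι)
    {t : ι → ℝ} (hi : t i = 0) (s : ℝ) (z : Y) : tcone κ (i :: l) t s z = tcone κ l t s z := by
  rw [tcone_cons, hi, zero_div, h0]

/-- all weights zero: nothing happens. -/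
theorem tcone_zero {κ : ι → Y × ℝ → Y} (h0 : ∀ i z, κ i (z, 0) = z) (l : List ι) {t : ι → ℝ}
    (ht : ∀ i ∈ l, t i = 0) (s : ℝ) (z : Y) : tcone κ l t s z = z := by
  induction l with
  | nil => rfl
  | cons i l ih =>
    rw [tcone_cons_zero h0 l (ht i (by simp)), ih fun j hj => ht j (by simp [hj])]

/-- **T-CONE-2**: for `s = 0` and positive total mass the value does not depend on `z`.
Induction on `l`.  `i :: l`: if `0 < (l.map t).sum` use the induction hypothesis; otherwise the sum is `0`, `t i > 0`, the parameter is `t i / (t i + 0) = 1`: `h1`. -/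
theorem tcone_indep {κ : ι → Y × ℝ → Y} {e : ι → Y} (h1 : ∀ i z, κ i (z, 1) = e i) {t : ι → ℝ}
    (ht : ∀ i, 0 ≤ t i) (l : List ι) (hpos : 0 < (l.map t).sum) (z z' : Y) :
    tcone κ l t 0 z = tcone κ l t 0 z' := by
  induction l with
  | nil => simp at hpos
  | cons i l ih =>
    rw [tcone_cons, tcone_cons]
    rcases (tcone_sum_nonneg ht l).lt_or_eq with h | h
    · rw [ih h]
    · have hi : 0 < t i := by simpa [← h] using hpos
      rw [← h, add_zero, add_zero, div_self hi.ne', h1, h1]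

variable [TopologicalSpace Y]

/-- **T-CONE-3**: the values stay in a compact set.
Induction on `l`: `Q_[] = Q`, `Q_(i :: l) = κ i '' (Q_l ×ˢ Icc 0 1)`, `tcone_par_mem`. -/
theorem tcone_mem_compact {κ : ι → Y × ℝ → Y} (hκ : ∀ i, Continuous (κ i)) (l : List ι) {Q : Set Y}
    (hQ : IsCompact Q) :
    ∃ Q' : Set Y, IsCompact Q' ∧ ∀ (t : ι → ℝ) (s : ℝ) (z : Y), (∀ i, 0 ≤ t i) → 0 ≤ s → z ∈ Q →
      tcone κ l t s z ∈ Q' := by
  induction l with
  | nil => exact ⟨Q, hQ, fun t s z _ _ hz => hz⟩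
  | cons i l ih =>
    obtain ⟨Q₁, hQ₁, h₁⟩ := ih
    refine ⟨κ i '' (Q₁ ×ˢ Icc (0 : ℝ) 1), (hQ₁.prod isCompact_Icc).image (hκ i), ?_⟩
    intro t s z ht hs hz
    rw [tcone_cons]
    exact mem_image_of_mem _ ⟨h₁ t s z ht hs hz, tcone_par_mem (ht i) (add_nonneg (tcone_sum_nonneg ht l) hs)⟩

theorem tcone_sum_continuousOn {T : Type} [TopologicalSpace T] {D : Set T} {t : T → ι → ℝ}
    (ht : ∀ i, ContinuousOn (fun x => t x i) D) (l : List ι) :
    ContinuousOn (fun x => (l.map (t x)).sum) D := by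
  induction l with
  | nil => simpa using continuousOn_const
  | cons i l ih =>
    simp only [List.map_cons, List.sum_cons]
    exact (ht i).add ih

/-- **T-CONE-4**: continuity at the points of positive total mass.
Induction on `l` (generalise nothing else: `D, t, s, z` are fixed).  `[]`: `hz`.  `i :: l`, `x₀ ∈ D` with `0 < t x₀ i + ((l.map (t x₀)).sum + s x₀)`:
the parameter `λ x = t x i / (t x i + (… + s x))` is continuous within `D` at `x₀` (denominator `≠ 0`; `(l.map (t x)).sum` is continuous: induction / `List.sum` of continuous functions).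
Case `0 < (l.map (t x₀)).sum + s x₀`: the inner value is continuous within `D` at `x₀` by the induction hypothesis; compose with `hκ i`.
Case `= 0`: `λ x₀ = 1`, value `e i`.  By `tcone_mem_compact` (with `Q = z '' D`) the inner values lie in a compact `Q'`.  For an open `V ∋ e i` the open set `κ i ⁻¹' V` contains
`Q' ×ˢ {1}`; `generalized_tube_lemma` gives an open `v ∋ 1` with `Q' ×ˢ v ⊆ κ i ⁻¹' V`; eventually `λ x ∈ v`. -/
theorem tcone_continuousWithinAt {T : Type} [TopologicalSpace T] {κ : ι → Y × ℝ → Y} {e : ι → Y}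
    (hκ : ∀ i, Continuous (κ i)) (h1 : ∀ i z, κ i (z, 1) = e i) {D : Set T} (hD : IsCompact D)
    {t : T → ι → ℝ} {s : T → ℝ} {z : T → Y} (ht : ∀ i, ContinuousOn (fun x => t x i) D)
    (hs : ContinuousOn s D) (hz : ContinuousOn z D) (ht0 : ∀ x ∈ D, ∀ i, 0 ≤ t x i)
    (hs0 : ∀ x ∈ D, 0 ≤ s x) (l : List ι) {x₀ : T} (hx₀ : x₀ ∈ D)
    (hpos : 0 < (l.map (t x₀)).sum + s x₀) :
    ContinuousWithinAt (fun x => tcone κ l (t x) (s x) (z x)) D x₀ := by
  induction l with
  | nil => exact hz x₀ hx₀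
  | cons i l ih =>
    simp only [tcone_cons]
    have hpos' : 0 < t x₀ i + ((l.map (t x₀)).sum + s x₀) := by
      simpa [add_assoc] using hpos
    have hrest : ContinuousWithinAt (fun x => (l.map (t x)).sum + s x) D x₀ :=
      ((tcone_sum_continuousOn ht l).add hs) x₀ hx₀
    have hlam : ContinuousWithinAt (fun x => t x i / (t x i + ((l.map (t x)).sum + s x))) D x₀ :=
      (ht i x₀ hx₀).div ((ht i x₀ hx₀).add hrest) hpos'.ne'
    have hr0 : 0 ≤ (l.map (t x₀)).sum + s x₀ :=
      add_nonneg (tcone_sum_nonneg (ht0 x₀ hx₀) l) (hs0 x₀ hx₀)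
    rcases hr0.lt_or_eq with h | h
    · exact (hκ i).continuousAt.comp_continuousWithinAt ((ih h).prodMk hlam)
    · have hti : 0 < t x₀ i := by rwa [← h, add_zero] at hpos'
      have hl1 : t x₀ i / (t x₀ i + ((l.map (t x₀)).sum + s x₀)) = 1 := by
        rw [← h, add_zero, div_self hti.ne']
      obtain ⟨Q', hQ', hmem⟩ := tcone_mem_compact hκ l (hD.image_of_continuousOn hz)
      unfold ContinuousWithinAt
      beta_reduce
      rw [hl1, h1, tendsto_nhds]
      intro V hV heV
      have hsub : Q' ×ˢ ({1} : Set ℝ) ⊆ κ i ⁻¹' V := by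
        rintro ⟨y, r⟩ ⟨_, hr⟩
        rw [mem_singleton_iff] at hr
        subst hr
        rw [mem_preimage, h1]
        exact heV
      obtain ⟨u, v, _, hv, hQu, h1v, huv⟩ :=
        generalized_tube_lemma hQ' isCompact_singleton (hV.preimage (hκ i)) hsub
      have hev : ∀ᶠ x in 𝓝[D] x₀, t x i / (t x i + ((l.map (t x)).sum + s x)) ∈ v := by
        refine hlam.tendsto.eventually_mem (hv.mem_nhds ?_)
        rw [hl1]
        exact h1v rfl
      filter_upwards [hev, self_mem_nhdsWithin] with x hxv hxD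
      exact huv ⟨hQu (hmem _ _ _ (ht0 x hxD) (hs0 x hxD) (mem_image_of_mem z hxD)), hxv⟩

theorem tcone_continuousOn {T : Type} [TopologicalSpace T] {κ : ι → Y × ℝ → Y} {e : ι → Y}
    (hκ : ∀ i, Continuous (κ i)) (h1 : ∀ i z, κ i (z, 1) = e i) {D : Set T} (hD : IsCompact D)
    {t : T → ι → ℝ} {s : T → ℝ} {z : T → Y} (ht : ∀ i, ContinuousOn (fun x => t x i) D)
    (hs : ContinuousOn s D) (hz : ContinuousOn z D) (ht0 : ∀ x ∈ D, ∀ i, 0 ≤ t x i)
    (hs0 : ∀ x ∈ D, 0 ≤ s x) (l : List ι) (hpos : ∀ x ∈ D, 0 < (l.map (t x)).sum + s x) :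
    ContinuousOn (fun x => tcone κ l (t x) (s x) (z x)) D := fun x hx =>
  tcone_continuousWithinAt hκ h1 hD ht hs hz ht0 hs0 l hx (hpos x hx)

/-- **T-CONE-5**: control of the displacement by the number of active indices.
Induction on `l`.  `[]`: `hz`.  `i :: l`: if `t i = 0` use `tcone_cons_zero` and `countP` unchanged.  If `0 < t i`: `countP = countP l + 1`; by the induction hypothesis (for `j := i`)
`d (c i) inner ≤ Rs m`; `hstep` gives `d (c i) (κ (c i) (inner, λ)) + a ≤ Rs (m+1)` (`tcone_par_mem`); triangle inequality with `hcc j i`. -/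
theorem tcone_ctrl {d : Y → Y → ℝ} (hd : PDist d) {κ : Y → Y × ℝ → Y}
    (h0 : ∀ c z, κ c (z, 0) = z) (c : ι → Y) {a : ℝ} {Rs : ℕ → ℝ}
    (hstep : ∀ (m : ℕ) (c z : Y), ∀ l ∈ Icc (0 : ℝ) 1, d c z ≤ Rs m → d c (κ c (z, l)) + a ≤ Rs (m + 1))
    {t : ι → ℝ} {s : ℝ} (ht : ∀ i, 0 ≤ t i) (hs : 0 ≤ s) {z : Y}
    (hz : ∀ i, 0 < t i → d (c i) z ≤ Rs 0) (hcc : ∀ i j, 0 < t i → 0 < t j → d (c i) (c j) ≤ a)
    (l : List ι) (j : ι) (hj : 0 < t j) :
    d (c j) (tcone (fun i => κ (c i)) l t s z) ≤ Rs (l.countP fun i => decide (0 < t i)) := by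
  induction l generalizing j with
  | nil => exact hz j hj
  | cons i l ih =>
    rcases (ht i).lt_or_eq with hi | hi
    · rw [List.countP_cons_of_pos (by simpa using hi), tcone_cons]
      have h2 := hstep _ (c i) _ _ (tcone_par_mem (ht i) (add_nonneg (tcone_sum_nonneg ht l) hs)) (ih i hi)
      have h3 := hd.tri (c j) (c i) (κ (c i) (tcone (fun i => κ (c i)) l t s z, t i / (t i + ((l.map t).sum + s))))
      have h4 := hcc j i hj hi
      linarith
    · rw [List.countP_cons_of_neg (by simp [← hi]), tcone_cons_zero (fun i z => h0 (c i) z) l hi.symm]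
      exact ih j hj

end Claimed.Agent.R314
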