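import Mathlib

/-!
# Row 314, block T (chief helper129): the abstract setting of CONE / NET / NV

`Y` is a topological space (later `Y = ↥X`, `X ⊆ E N` with the subspace topology) and `d : Y → Y → ℝ` a continuous proper distance FUNCTION
(later `d a b = rdist X g a b`).  No metric space instance is used: the topology is the given one, `d` is only used for bounds.

* `PDist d`   : continuous, symmetric, triangle inequality, closed `d`-balls compact.
* `AUC d`     : `PDist` + global contraction + cocompact group of `d`-isometries.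
* `CFam d κ e`: a controlled family of contractions `κ c : Y × ℝ → Y` (`c` = centre): `κ c (z,0) = z`, `κ c (z,1) = e c`,
                `d c z ≤ r → d c (κ c (z,l)) ≤ ρ(r)`.
* `tcone κ l t s z` : iterated coning `κ i₁ (κ i₂ (… κ iₘ (z, λₘ) …, λ₂), λ₁)`, `λⱼ = tⱼ / (tⱼ + … + tₘ + s)` (`0/0 = 0`).
  Zero weights drop out; continuous where the total mass `∑ t + s` is positive; independent of `z` if `s = 0`.
* `DGP d`     : the degree property (= `dg_main` for `Y = ↥X`).
* `LSurj d`   : local surjectivity of maps at bounded distance from the identity.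
-/

set_option autoImplicit false
open Set Topology

namespace Claimed.Agent.R314

variable {Y : Type}

/-- iterated coning. -/
noncomputable def tcone {ι : Type} (κ : ι → Y × ℝ → Y) : List ι → (ι → ℝ) → ℝ → Y → Y
  | [], _, _, z => z
  | i :: l, t, s, z => κ i (tcone κ l t s z, t i / (t i + ((l.map t).sum + s)))

@[simp] theorem tcone_nil {ι : Type} (κ : ι → Y × ℝ → Y) (t : ι → ℝ) (s : ℝ) (z : Y) :
    tcone κ [] t s z = z := rfl

@[simp] theorem tcone_cons {ι : Type} (κ : ι → Y × ℝ → Y) (i : ι) (l : List ι) (t : ι → ℝ) (s : ℝ)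
    (z : Y) :
    tcone κ (i :: l) t s z = κ i (tcone κ l t s z, t i / (t i + ((l.map t).sum + s))) := rfl

variable [TopologicalSpace Y]

/-- a continuous proper distance function. -/
structure PDist (d : Y → Y → ℝ) : Prop where
  cont : Continuous fun p : Y × Y => d p.1 p.2
  nonneg : ∀ x y, 0 ≤ d x y
  self : ∀ x, d x x = 0
  symm : ∀ x y, d x y = d y x
  tri : ∀ x y z, d x z ≤ d x y + d y z
  proper : ∀ (x : Y) (R : ℝ), IsCompact {y | d x y ≤ R}

/-- abstract uniformly contractible space: global contraction + cocompact isometries. -/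
structure AUC (d : Y → Y → ℝ) : Prop where
  pd : PDist d
  contr : ∃ (y0 : Y) (h : Y × ℝ → Y), ContinuousOn h (univ ×ˢ Icc (0 : ℝ) 1) ∧
    (∀ y, h (y, 0) = y) ∧ ∀ y, h (y, 1) = y0
  cocpt : ∃ K : Set Y, IsCompact K ∧ ∀ y, ∃ γ : Y ≃ₜ Y, (∀ a b, d (γ a) (γ b) = d a b) ∧ γ y ∈ K

/-- controlled family of contractions; `κ c` contracts `Y` to the point `e c` near the centre `c`. -/
structure CFam (d : Y → Y → ℝ) (κ : Y → Y × ℝ → Y) (e : Y → Y) : Prop where
  cont : ∀ c, Continuous (κ c)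
  zero : ∀ c z, κ c (z, 0) = z
  one : ∀ c z, κ c (z, 1) = e c
  ctrl : ∀ r : ℝ, ∃ ρ : ℝ, ∀ c z, ∀ l ∈ Icc (0 : ℝ) 1, d c z ≤ r → d c (κ c (z, l)) ≤ ρ

/-- the degree property. -/
def DGP (d : Y → Y → ℝ) : Prop :=
  ∀ (x0 : Y) (R C3 : ℝ) (H : Y × ℝ → Y), 0 ≤ C3 → ContinuousOn H ({y | d x0 y ≤ R} ×ˢ Icc (0 : ℝ) 1) →
    (∀ x, d x0 x ≤ R → H (x, 0) = x) →
    (∀ x, d x0 x ≤ R → ∀ t ∈ Icc (0 : ℝ) 1, d x (H (x, t)) ≤ C3) →
    ∀ q, d x0 q + C3 < R → ∃ x, d x0 x ≤ R ∧ H (x, 1) = q

/-- maps of large balls at bounded distance from the inclusion are onto in the middle. -/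
def LSurj (d : Y → Y → ℝ) : Prop :=
  ∀ C2 : ℝ, ∃ C3 : ℝ, ∀ (x0 : Y) (R : ℝ) (G : Y → Y), ContinuousOn G {y | d x0 y ≤ R} →
    (∀ x, d x0 x ≤ R → d x (G x) ≤ C2) → ∀ q, d x0 q + C3 < R → ∃ x, d x0 x ≤ R ∧ G x = q

end Claimed.Agent.R314
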