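import Claimed.Agent.R314.T.AbsDefs

/-!
# Row 314, block T, packages FAM + NET (chief helper129): consequences of cocompactness

Leaves `T-FAM-1`, `T-FAM-2`, `T-NET-1`, `T-NET-2`.  Pure topology, `Mathlib` only.
-/

set_option autoImplicit false
open Set Topology

namespace Claimed.Agent.R314

variable {Y : Type} [TopologicalSpace Y] {d : Y → Y → ℝ}

/-- **T-FAM-0**: a compact set is `d`-bounded. (`IsCompact.exists_bound_of_continuousOn` / `bddAbove_image` for `d x ·`, continuous by `hd.cont`.) -/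
theorem PDist.bdd_of_compact (hd : PDist d) {K : Set Y} (hK : IsCompact K) (x : Y) :
    ∃ A : ℝ, ∀ k ∈ K, d x k ≤ A := by
  have hc : ContinuousOn (fun k => d x k) K :=
    (hd.cont.comp (Continuous.prodMk_right x)).continuousOn
  obtain ⟨A, hA⟩ := hK.bddAbove_image hc
  exact ⟨A, fun k hk => hA (mem_image_of_mem _ hk)⟩

/-- **T-FAM-1**: the controlled family of contractions.
`y0, h` from `H.contr`, `K` and (by choice) `γ c` from `H.cocpt`.  `κ c (z, l) = (γ c).symm (h (γ c z, max 0 (min 1 l)))`, `e c = (γ c).symm y0`.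
`cont`: `ContinuousOn.comp_continuous`.  `ctrl`: if `Y` is empty trivial; fix `k0 ∈ K` (`K` is nonempty as soon as `Y` is), `A` with `d k0 k ≤ A` on `K` (`bdd_of_compact`);
`B = {w | d k0 w ≤ A + r}` is compact; `(w,l) ↦ d k0 (h (w,l))` is continuous on the compact set `B ×ˢ Icc 0 1`, hence `≤ M`.  Then
`d c (κ c (z,l)) = d (γ c) (h (γ z, l)) ≤ d (γ c) k0 + M ≤ A + M` since `d k0 (γ z) ≤ d k0 (γ c) + d (γ c) (γ z) ≤ A + r`. -/
theorem abs_cfam (H : AUC d) : ∃ (κ : Y → Y × ℝ → Y) (e : Y → Y), CFam d κ e := by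
  obtain ⟨y0, h, hc, h0, h1⟩ := H.contr
  obtain ⟨K, hK, hγ⟩ := H.cocpt
  choose γ hiso hmem using hγ
  have hd := H.pd
  refine ⟨fun c p => (γ c).symm (h (γ c p.1, max 0 (min 1 p.2))), fun c => (γ c).symm y0, ?_, ?_, ?_, ?_⟩
  · intro c
    refine (γ c).symm.continuous.comp ?_
    refine hc.comp_continuous ?_ ?_
    · exact ((γ c).continuous.comp continuous_fst).prodMk
        (continuous_const.max (continuous_const.min continuous_snd))
    · intro p
      exact ⟨mem_univ _, le_max_left _ _, max_le zero_le_one (min_le_left _ _)⟩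
  · intro c z
    simp [h0]
  · intro c z
    simp [h1]
  · intro r
    by_cases hY : Nonempty Y
    · obtain ⟨y⟩ := hY
      have hk0 : γ y y ∈ K := hmem y
      set k0 := γ y y
      obtain ⟨A, hA⟩ := hd.bdd_of_compact hK k0
      have hB : IsCompact ({w | d k0 w ≤ A + r} ×ˢ Icc (0 : ℝ) 1) :=
        (hd.proper k0 (A + r)).prod isCompact_Icc
      have hcont : ContinuousOn (fun p : Y × ℝ => d k0 (h p)) ({w | d k0 w ≤ A + r} ×ˢ Icc (0 : ℝ) 1) := by
        have h2 : Continuous fun w => d k0 w := hd.cont.comp (Continuous.prodMk_right k0)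
        exact h2.comp_continuousOn (hc.mono (prod_mono (subset_univ _) subset_rfl))
      obtain ⟨M, hM⟩ := hB.bddAbove_image hcont
      refine ⟨A + M, fun c z l hl hcz => ?_⟩
      have e1 : max 0 (min 1 l) = l := by rw [min_eq_right hl.2, max_eq_right hl.1]
      show d c ((γ c).symm (h (γ c z, max 0 (min 1 l)))) ≤ A + M
      rw [e1]
      have e2 : d c ((γ c).symm (h (γ c z, l))) = d (γ c c) (h (γ c z, l)) := by
        rw [← hiso c c, Homeomorph.apply_symm_apply]
      rw [e2]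
      have e3 : d k0 (γ c z) ≤ A + r := by
        calc d k0 (γ c z) ≤ d k0 (γ c c) + d (γ c c) (γ c z) := hd.tri _ _ _
          _ ≤ A + r := add_le_add (hA _ (hmem c)) (by rw [hiso]; exact hcz)
      have e4 : d k0 (h (γ c z, l)) ≤ M := hM (mem_image_of_mem _ ⟨e3, hl⟩)
      calc d (γ c c) (h (γ c z, l)) ≤ d (γ c c) k0 + d k0 (h (γ c z, l)) := hd.tri _ _ _
        _ ≤ A + M := add_le_add (by rw [hd.symm]; exact hA _ (hmem c)) e4
    · exact ⟨0, fun c => absurd ⟨c⟩ hY⟩

/-- **T-FAM-2**: the iterated control radii.  `Rs 0 = r0`, `Rs (m+1) = max (Rs m) (ρ (Rs m) + a)` with `ρ` chosen from `hκ.ctrl` (`choose`, `Nat.rec`). -/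
theorem abs_seq {κ : Y → Y × ℝ → Y} {e : Y → Y} (hκ : CFam d κ e) (a r0 : ℝ) :
    ∃ Rs : ℕ → ℝ, Monotone Rs ∧ Rs 0 = r0 ∧ ∀ (m : ℕ) (c z : Y), ∀ l ∈ Icc (0 : ℝ) 1,
      d c z ≤ Rs m → d c (κ c (z, l)) + a ≤ Rs (m + 1) := by
  choose ρ hρ using hκ.ctrl
  let Rs : ℕ → ℝ := fun m => Nat.rec r0 (fun _ R => max R (ρ R + a)) m
  refine ⟨Rs, monotone_nat_of_le_succ fun m => le_max_left _ _, rfl, fun m c z l hl h => ?_⟩
  have := hρ (Rs m) c z l hl h
  exact le_trans (by linarith) (le_max_right (Rs m) (ρ (Rs m) + a))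

/-- a finite cover of a compact set by half balls -/
theorem abs_net_cover (hd : PDist d) {K : Set Y} (hK : IsCompact K) :
    ∃ t : Finset Y, ∀ x ∈ K, ∃ p ∈ t, d p x < 1 / 2 := by
  have hopen : ∀ p : Y, IsOpen {w | d p w < 1 / 2} := fun p =>
    isOpen_lt (hd.cont.comp (Continuous.prodMk_right p)) continuous_const
  obtain ⟨t, ht⟩ := hK.elim_finite_subcover (fun p : Y => {w | d p w < 1 / 2}) hopen
    (fun x _ => mem_iUnion.2 ⟨x, by show d x x < 1 / 2; rw [hd.self]; norm_num⟩)
  refine ⟨t, fun x hx => ?_⟩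
  obtain ⟨p, hp⟩ := mem_iUnion.1 (ht hx)
  obtain ⟨hpt, hx'⟩ := mem_iUnion.1 hp
  exact ⟨p, hpt, hx'⟩

/-- a `1`-separated finset whose isometric image is covered by half balls -/
theorem abs_net_card (hd : PDist d) {t F : Finset Y} (g : Y → Y) (hg : ∀ a b, d (g a) (g b) = d a b)
    (hcov : ∀ c ∈ F, ∃ p ∈ t, d p (g c) < 1 / 2) (hsep : ∀ c ∈ F, ∀ c' ∈ F, c ≠ c' → 1 ≤ d c c') :
    F.card ≤ t.card := by
  classical
  choose! φ hφ hφd using hcov
  refine Finset.card_le_card_of_injOn φ (fun c hc => hφ c hc) ?_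
  intro c hc c' hc' heq
  by_contra hne
  have h1 := hsep c hc c' hc' hne
  have h2 := hφd c hc
  have h3 := hφd c' hc'
  rw [← heq] at h3
  have h4 := hd.tri (g c) (φ c) (g c')
  rw [hg, hd.symm (g c) (φ c)] at h4
  linarith

/-- **T-NET-1**: a compact set has a finite `1`-net which is `1`-separated.
Cover `D` by finitely many open sets `{w | d p w < 1/2}`, `p ∈ D` (`IsCompact.elim_finite_subcover` / `elim_nhds_subcover`): `m` of them.  A finset `F ⊆ D` with `1 ≤ d c c'` for `c ≠ c'`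
has at most `m` elements (two points in the same set are at distance `< 1`).  Take such an `F` of maximal cardinality (`Nat.findGreatest`, or `Set.Finite`/`exists_max_image`, or strong induction on `m - F.card`);
if some `x ∈ D` had `1 ≤ d c x` for all `c ∈ F`, then `insert x F` would be larger. -/
theorem abs_sep_net (hd : PDist d) {D : Set Y} (hD : IsCompact D) :
    ∃ F : Finset Y, (∀ c ∈ F, c ∈ D) ∧ (∀ c ∈ F, ∀ c' ∈ F, c ≠ c' → 1 ≤ d c c') ∧
      ∀ x ∈ D, ∃ c ∈ F, d c x < 1 := by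
  classical
  obtain ⟨t, ht⟩ := abs_net_cover hd hD
  have hcard : ∀ F : Finset Y, (∀ c ∈ F, c ∈ D) → (∀ c ∈ F, ∀ c' ∈ F, c ≠ c' → 1 ≤ d c c') → F.card ≤ t.card :=
    fun F h1 h2 => abs_net_card hd id (fun _ _ => rfl) (fun c hc => ht c (h1 c hc)) h2
  have key : ∀ n : ℕ, ∀ F : Finset Y, (∀ c ∈ F, c ∈ D) → (∀ c ∈ F, ∀ c' ∈ F, c ≠ c' → 1 ≤ d c c') →
      t.card - F.card ≤ n →
      ∃ F : Finset Y, (∀ c ∈ F, c ∈ D) ∧ (∀ c ∈ F, ∀ c' ∈ F, c ≠ c' → 1 ≤ d c c') ∧
        ∀ x ∈ D, ∃ c ∈ F, d c x < 1 := by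
    intro n
    induction n with
    | zero =>
      intro F h1 h2 hn
      by_cases hnet : ∀ x ∈ D, ∃ c ∈ F, d c x < 1
      · exact ⟨F, h1, h2, hnet⟩
      · exfalso
        push Not at hnet
        obtain ⟨x, hx, hxF⟩ := hnet
        have hxn : x ∉ F := fun hxm => by
          have := hxF x hxm
          rw [hd.self] at this
          linarith
        have h1' : ∀ c ∈ insert x F, c ∈ D := by
          intro c hc
          rcases Finset.mem_insert.1 hc with h | hc
          · rw [h]; exact hx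
          · exact h1 c hc
        have h2' : ∀ c ∈ insert x F, ∀ c' ∈ insert x F, c ≠ c' → 1 ≤ d c c' := by
          intro c hc c' hc' hne
          rcases Finset.mem_insert.1 hc with h | hc <;> rcases Finset.mem_insert.1 hc' with h' | hc'
          · exact absurd (h.trans h'.symm) hne
          · rw [h, hd.symm]; exact hxF c' hc'
          · rw [h']; exact hxF c hc
          · exact h2 c hc c' hc' hne
        have hc' := hcard _ h1' h2'
        rw [Finset.card_insert_of_notMem hxn] at hc'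
        omega
    | succ n ih =>
      intro F h1 h2 hn
      by_cases hnet : ∀ x ∈ D, ∃ c ∈ F, d c x < 1
      · exact ⟨F, h1, h2, hnet⟩
      · push Not at hnet
        obtain ⟨x, hx, hxF⟩ := hnet
        have hxn : x ∉ F := fun hxm => by
          have := hxF x hxm
          rw [hd.self] at this
          linarith
        have h1' : ∀ c ∈ insert x F, c ∈ D := by
          intro c hc
          rcases Finset.mem_insert.1 hc with h | hc
          · rw [h]; exact hx
          · exact h1 c hc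
        have h2' : ∀ c ∈ insert x F, ∀ c' ∈ insert x F, c ≠ c' → 1 ≤ d c c' := by
          intro c hc c' hc' hne
          rcases Finset.mem_insert.1 hc with h | hc <;> rcases Finset.mem_insert.1 hc' with h' | hc'
          · exact absurd (h.trans h'.symm) hne
          · rw [h, hd.symm]; exact hxF c' hc'
          · rw [h']; exact hxF c hc
          · exact h2 c hc c' hc' hne
        refine ih (insert x F) h1' h2' ?_
        rw [Finset.card_insert_of_notMem hxn]
        omega
  exact key t.card ∅ (fun c hc => absurd hc (Finset.notMem_empty c)) (fun c hc => absurd hc (Finset.notMem_empty c))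
    (by simp)

/-- **T-NET-2**: uniform bound for the number of points of a `1`-separated set in a ball of radius `2`.
`K`, `γ` from `H.cocpt`; `k0 ∈ K`, `A` as in `abs_cfam`; cover the compact set `{w | d k0 w ≤ A + 2}` by `P` open sets `{w | d p w < 1/2}`.  For `x` take `γ` with `γ x ∈ K`;
`c ↦` (an index of a set containing `γ c`) is injective on `{c ∈ F | d c x < 2}`. -/
theorem abs_sep_card (H : AUC d) :
    ∃ P : ℕ, ∀ F : Finset Y, (∀ c ∈ F, ∀ c' ∈ F, c ≠ c' → 1 ≤ d c c') →
      ∀ x, (F.filter fun c => d c x < 2).card ≤ P := by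
  obtain ⟨K, hK, hγ⟩ := H.cocpt
  rcases K.eq_empty_or_nonempty with rfl | ⟨k0, hk0⟩
  · refine ⟨0, fun F _ x => ?_⟩
    obtain ⟨γ, -, h⟩ := hγ x
    exact absurd h (Set.notMem_empty _)
  obtain ⟨A, hA⟩ := H.pd.bdd_of_compact hK k0
  obtain ⟨t, ht⟩ := abs_net_cover H.pd (H.pd.proper k0 (A + 2))
  refine ⟨t.card, fun F hF x => ?_⟩
  obtain ⟨γ, hiso, hx⟩ := hγ x
  refine abs_net_card H.pd γ hiso (fun c hc => ht _ ?_) (fun c hc c' hc' hne =>
    hF c (Finset.mem_filter.1 hc).1 c' (Finset.mem_filter.1 hc').1 hne)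
  have h1 := (Finset.mem_filter.1 hc).2
  have h2 := H.pd.tri k0 (γ x) (γ c)
  rw [hiso, H.pd.symm x c] at h2
  show d k0 (γ c) ≤ A + 2
  linarith [hA _ hx]

/-- **NET**. -/
theorem abs_net (H : AUC d) :
    ∃ P : ℕ, ∀ D : Set Y, IsCompact D → ∃ F : Finset Y, (∀ x ∈ D, ∃ c ∈ F, d c x < 1) ∧
      ∀ x, (F.filter fun c => d c x < 2).card ≤ P := by
  obtain ⟨P, hP⟩ := abs_sep_card H
  refine ⟨P, fun D hD => ?_⟩
  obtain ⟨F, -, h2, h3⟩ := abs_sep_net H.pd hD
  exact ⟨F, h3, hP F h2⟩

end Claimed.Agent.R314
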