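import Claimed.Agent.R314.T.AbsCone
import Claimed.Agent.R314.T.AbsFam

/-!
# Row 314, block T, package CONE (chief helper129): bounded maps are boundedly homotopic to the identity

Leaf `T-HOM`; glue `abs_lsurj`.
-/

set_option autoImplicit false
open Set Topology

namespace Claimed.Agent.R314

variable {Y : Type} [TopologicalSpace Y] {d : Y → Y → ℝ}

/-- the total weight of the net at a point of `D` -/
theorem abs_hom_W (F : Finset Y) (x : Y) (hx : ∃ c ∈ F, d c x < 1) :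
    1 ≤ (F.toList.map (fun c => max 0 (2 - d c x))).sum := by
  obtain ⟨c, hc, hcx⟩ := hx
  rw [Finset.sum_map_toList]
  have h1 : max 0 (2 - d c x) ≤ ∑ c ∈ F, max 0 (2 - d c x) :=
    Finset.single_le_sum (f := fun c => max 0 (2 - d c x)) (fun i _ => le_max_left _ _) hc
  have h2 : 2 - d c x ≤ max 0 (2 - d c x) := le_max_right _ _
  linarith

/-- the number of active indices -/
theorem abs_hom_count (F : Finset Y) (x : Y) {P : ℕ} (hP : (F.filter fun c => d c x < 2).card ≤ P) {μ : ℝ} :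
    (F.toList.countP fun c => decide (0 < μ * max 0 (2 - d c x))) ≤ P := by
  rw [← Multiset.coe_countP, Finset.coe_toList, Multiset.countP_eq_card_filter, ← Finset.filter_val, ← Finset.card_def]
  refine le_trans (Finset.card_le_card fun c hc => ?_) hP
  rw [Finset.mem_filter] at hc ⊢
  refine ⟨hc.1, ?_⟩
  by_contra hcon
  push Not at hcon
  have : max 0 (2 - d c x) = 0 := max_eq_left (by linarith)
  rw [this, mul_zero] at hc
  exact lt_irrefl _ hc.2

/-- the displacement of one half of the homotopy -/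
theorem abs_hom_disp (hd : PDist d) {κ : Y → Y × ℝ → Y} {e : Y → Y} (hκ : CFam d κ e) {P : ℕ} {Rs : ℕ → ℝ} {C : ℝ}
    (hC : 0 ≤ C) (hmono : Monotone Rs) (h0 : Rs 0 = 2 + C)
    (hstep : ∀ (m : ℕ) (c z : Y), ∀ l ∈ Icc (0 : ℝ) 1, d c z ≤ Rs m → d c (κ c (z, l)) + 4 ≤ Rs (m + 1))
    (F : Finset Y) (x z : Y) (hx : ∃ c ∈ F, d c x < 1) (hP : (F.filter fun c => d c x < 2).card ≤ P)
    (hz : d x z ≤ C) {μ s : ℝ} (hμ : 0 ≤ μ) (hs : 0 ≤ s) :
    d x (tcone κ F.toList (fun c => μ * max 0 (2 - d c x)) s z) ≤ 2 + Rs P := by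
  have hRP : Rs 0 ≤ Rs P := hmono (Nat.zero_le P)
  rcases hμ.eq_or_lt with rfl | hμ'
  · rw [tcone_zero hκ.zero _ (fun i _ => zero_mul _)]
    linarith
  obtain ⟨j, hj, hjx⟩ := hx
  have hact : ∀ i, 0 < μ * max 0 (2 - d i x) → d i x < 2 := by
    intro i hi
    by_contra hcon
    push Not at hcon
    have : max 0 (2 - d i x) = 0 := max_eq_left (by linarith)
    rw [this, mul_zero] at hi
    exact lt_irrefl _ hi
  have hjpos : 0 < μ * max 0 (2 - d j x) :=
    mul_pos hμ' (lt_of_lt_of_le (by linarith) (le_max_right _ _))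
  have h1 := tcone_ctrl hd hκ.zero (fun c : Y => c) (a := 4) (Rs := Rs) hstep
    (t := fun c => μ * max 0 (2 - d c x)) (s := s) (fun i => mul_nonneg hμ (le_max_left _ _)) hs (z := z)
    (fun i hi => by
      have := hd.tri i x z
      have := hact i hi
      linarith)
    (fun i i' hi hi' => by
      have h2 := hd.tri i x i'
      rw [hd.symm x i'] at h2
      have := hact i hi
      have := hact i' hi'
      linarith)
    F.toList j hjpos
  have h2 : Rs (F.toList.countP fun c => decide (0 < μ * max 0 (2 - d c x))) ≤ Rs P := hmono (abs_hom_count F x hP)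
  have h3 := hd.tri x j (tcone κ F.toList (fun c => μ * max 0 (2 - d c x)) s z)
  rw [hd.symm x j] at h3
  linarith

/-- continuity of one half of the homotopy -/
theorem abs_hom_cont (hd : PDist d) {κ : Y → Y × ℝ → Y} {e : Y → Y} (hκ : CFam d κ e) {D : Set Y} (hD : IsCompact D)
    (F : Finset Y) (hnet : ∀ x ∈ D, ∃ c ∈ F, d c x < 1) {I : Set ℝ} (hI : IsCompact I) {μ s : ℝ → ℝ}
    (hμc : Continuous μ) (hsc : Continuous s) (hμ0 : ∀ τ ∈ I, 0 ≤ μ τ) (hs0 : ∀ τ ∈ I, 0 ≤ s τ)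
    (hsum : ∀ τ ∈ I, μ τ + s τ = 1) {z : Y → Y} (hz : ContinuousOn z D) :
    ContinuousOn (fun p : Y × ℝ => tcone κ F.toList (fun c => μ p.2 * max 0 (2 - d c p.1)) (s p.2) (z p.1))
      (D ×ˢ I) := by
  refine tcone_continuousOn hκ.cont hκ.one (hD.prod hI) (t := fun p c => μ p.2 * max 0 (2 - d c p.1))
    (s := fun p => s p.2) (z := fun p => z p.1) (fun c => ?_) ?_ ?_ ?_ ?_ F.toList ?_
  · have h1 : Continuous fun p : Y × ℝ => d c p.1 := hd.cont.comp (continuous_const.prodMk continuous_fst)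
    exact ((hμc.comp continuous_snd).mul (continuous_const.max (continuous_const.sub h1))).continuousOn
  · exact (hsc.comp continuous_snd).continuousOn
  · exact hz.comp continuous_fst.continuousOn (fun p hp => hp.1)
  · exact fun p hp c => mul_nonneg (hμ0 _ hp.2) (le_max_left _ _)
  · exact fun p hp => hs0 _ hp.2
  · intro p hp
    rw [List.sum_map_mul_left]
    have h1 := abs_hom_W F p.1 (hnet _ hp.1)
    have h2 := hμ0 _ hp.2
    have h3 := hsum _ hp.2
    nlinarith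

/-- **T-HOM**.
`κ, e` from `abs_cfam`, `P` from `abs_net`, `Rs` from `abs_seq hκ 4 (2 + max C2 0)`; `C3 = 2 + Rs P`  (all before `D`).
Given `D, G`: `F` from the net, `l = F.toList`, `w x c = max 0 (2 - d c x)` (continuous, `≥ 0`, `> 0 ↔ d c x < 2`; `(l.map (w x)).sum ≥ 1` on `D`: one term is `> 1`, `List.single_le_sum` / `Finset.sum_toList`).
`H1 (x,τ) = tcone κ l (fun c => 2τ * w x c) (1 - 2τ) x` on `D ×ˢ Icc 0 (1/2)`,
`H2 (x,τ) = tcone κ l (fun c => (2 - 2τ) * w x c) (2τ - 1) (G x)` on `D ×ˢ Icc (1/2) 1`; `H p = if p.2 ≤ 1/2 then H1 p else H2 p`.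
Continuity: `tcone_continuousOn` on the two compact sets (total mass `= 2τ W + (1-2τ) > 0` resp. `(2-2τ) W + (2τ-1) > 0`, `List.sum_map_mul_left`), they agree for `τ = 1/2` by `tcone_indep`;
`ContinuousOn.union_of_isClosed` (`D` is closed: `T2Space`) and `ContinuousOn.congr`.
`H (x,0) = x`: `tcone_zero`.  `H (x,1) = G x`: `tcone_zero`.
Displacement: if no weight is positive (`τ = 0` resp. `τ = 1`) the value is `x` resp. `G x`.  Otherwise pick an active `j`: `d j x < 2`;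
`tcone_ctrl` with `c = id`, `a = 4`: `hz`: `d c x < 2` resp. `d c (G x) ≤ 2 + C2`; `hcc`: `d c c' ≤ d c x + d x c' < 4`; `countP ≤ P`
(`countP` on `F.toList` = `(F.filter _).card`: `Finset.coe_toList`, `Multiset.coe_countP`, `Multiset.countP_eq_card_filter`; active ⊆ `{c | d c x < 2}`), `Rs` monotone. -/
theorem abs_homotopy [T2Space Y] (H : AUC d) (C2 : ℝ) :
    ∃ C3 : ℝ, ∀ D : Set Y, IsCompact D → ∀ G : Y → Y, ContinuousOn G D →
      (∀ x ∈ D, d x (G x) ≤ C2) →
      ∃ Hh : Y × ℝ → Y, ContinuousOn Hh (D ×ˢ Icc (0 : ℝ) 1) ∧ (∀ x ∈ D, Hh (x, 0) = x) ∧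
        (∀ x ∈ D, Hh (x, 1) = G x) ∧ ∀ x ∈ D, ∀ τ ∈ Icc (0 : ℝ) 1, d x (Hh (x, τ)) ≤ C3 := by
  obtain ⟨κ, e, hκ⟩ := abs_cfam H
  obtain ⟨P, hP⟩ := abs_net H
  obtain ⟨Rs, hmono, hR0, hstep⟩ := abs_seq hκ 4 (2 + max C2 0)
  refine ⟨2 + Rs P, fun D hD G hG hdisp => ?_⟩
  obtain ⟨F, hnet, hcard⟩ := hP D hD
  have hd := H.pd
  have c1 := abs_hom_cont hd hκ hD F hnet (I := Icc (0 : ℝ) (1 / 2)) isCompact_Icc (μ := fun τ => 2 * τ)
    (s := fun τ => 1 - 2 * τ) (by fun_prop) (by fun_prop) (fun τ hτ => by have := hτ.1; positivity)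
    (fun τ hτ => by have := hτ.2; linarith) (fun τ _ => by ring) (z := fun x => x) continuousOn_id
  have c2 := abs_hom_cont hd hκ hD F hnet (I := Icc (1 / 2 : ℝ) 1) isCompact_Icc (μ := fun τ => 2 - 2 * τ)
    (s := fun τ => 2 * τ - 1) (by fun_prop) (by fun_prop) (fun τ hτ => by have := hτ.2; linarith)
    (fun τ hτ => by have := hτ.1; linarith) (fun τ _ => by ring) (z := G) hG
  set H1 : Y × ℝ → Y := fun p => tcone κ F.toList (fun c => 2 * p.2 * max 0 (2 - d c p.1)) (1 - 2 * p.2) p.1 with hH1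
  set H2 : Y × ℝ → Y := fun p => tcone κ F.toList (fun c => (2 - 2 * p.2) * max 0 (2 - d c p.1)) (2 * p.2 - 1) (G p.1)
    with hH2
  have hagree : ∀ x ∈ D, H1 (x, 1 / 2) = H2 (x, 1 / 2) := by
    intro x hx
    have e1 : H1 (x, 1 / 2) = tcone κ F.toList (fun c => 1 * max 0 (2 - d c x)) 0 x := by
      simp only [hH1]
      norm_num
    have e2 : H2 (x, 1 / 2) = tcone κ F.toList (fun c => 1 * max 0 (2 - d c x)) 0 (G x) := by
      simp only [hH2]
      norm_num
    rw [e1, e2]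
    refine tcone_indep hκ.one (fun i => mul_nonneg zero_le_one (le_max_left _ _)) _ ?_ _ _
    rw [List.sum_map_mul_left, one_mul]
    linarith [abs_hom_W F x (hnet x hx)]
  refine ⟨fun p => if p.2 ≤ 1 / 2 then H1 p else H2 p, ?_, ?_, ?_, ?_⟩
  · have hsplit : D ×ˢ Icc (0 : ℝ) 1 = D ×ˢ Icc (0 : ℝ) (1 / 2) ∪ D ×ˢ Icc (1 / 2 : ℝ) 1 := by
      rw [← Set.prod_union, Icc_union_Icc_eq_Icc (by norm_num) (by norm_num)]
    rw [hsplit]
    refine ContinuousOn.union_of_isClosed (c1.congr ?_) (c2.congr ?_) (hD.isClosed.prod isClosed_Icc)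
      (hD.isClosed.prod isClosed_Icc)
    · intro p hp
      show (if p.2 ≤ 1 / 2 then H1 p else H2 p) = H1 p
      rw [if_pos hp.2.2]
    · intro p hp
      show (if p.2 ≤ 1 / 2 then H1 p else H2 p) = H2 p
      by_cases h : p.2 ≤ 1 / 2
      · rw [if_pos h]
        have h2 : p.2 = 1 / 2 := le_antisymm h hp.2.1
        have h3 : p = (p.1, 1 / 2) := Prod.ext rfl h2
        rw [h3]
        exact hagree _ hp.1
      · rw [if_neg h]
  · intro x _
    show (if (0 : ℝ) ≤ 1 / 2 then H1 (x, 0) else H2 (x, 0)) = x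
    rw [if_pos (by norm_num)]
    exact tcone_zero hκ.zero _ (fun i _ => by simp) _ _
  · intro x _
    show (if (1 : ℝ) ≤ 1 / 2 then H1 (x, 1) else H2 (x, 1)) = G x
    rw [if_neg (by norm_num)]
    exact tcone_zero hκ.zero _ (fun i _ => by simp) _ _
  · intro x hx τ hτ
    show d x (if τ ≤ 1 / 2 then H1 (x, τ) else H2 (x, τ)) ≤ 2 + Rs P
    by_cases h : τ ≤ 1 / 2
    · rw [if_pos h]
      exact abs_hom_disp hd hκ (le_max_right C2 0) hmono hR0 hstep F x x (hnet x hx) (hcard x)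
        (by rw [hd.self]; exact le_max_right _ _) (by have := hτ.1; positivity) (by linarith)
    · rw [if_neg h]
      push Not at h
      exact abs_hom_disp hd hκ (le_max_right C2 0) hmono hR0 hstep F x (G x) (hnet x hx) (hcard x)
        ((hdisp x hx).trans (le_max_left _ _)) (by have := hτ.2; linarith) (by linarith)

/-- CONE + DG. -/
theorem abs_lsurj [T2Space Y] (H : AUC d) (hdg : DGP d) : LSurj d := by
  intro C2
  obtain ⟨C3, hC3⟩ := abs_homotopy H C2
  refine ⟨max C3 0, fun x0 R G hG hdisp q hq => ?_⟩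
  obtain ⟨Hh, h1, h2, h3, h4⟩ := hC3 {y | d x0 y ≤ R} (H.pd.proper x0 R) G hG hdisp
  obtain ⟨x, hx, hxq⟩ := hdg x0 R (max C3 0) Hh (le_max_right _ _) h1 h2
    (fun x hx t ht => (h4 x hx t ht).trans (le_max_left _ _)) q hq
  exact ⟨x, hx, by rw [← h3 x hx, hxq]⟩

end Claimed.Agent.R314
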