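import Claimed.Agent.R314.T.Ext

/-!
# Row 314, block T, package HT2 (architect helper126; chief helper129): the global contraction

EXIT CONTRACT `contr_main`.
PROOF.  `K_j = X ∩ closedBall 0 (j - 1)` (compact, `K_0 = ∅`).  `H_j : E N × ℝ → X` continuous, `H_j (x,0) = x`, `H_j (x,1) = x0` on `K_j`, and `H_{j+1} = H_j` on
`K_j × [0,1]`: `ext_global` (transported along `E N × ℝ ≃L (Fin (N+1) → ℝ)`) with `A = K_{j+1} × {0} ∪ K_{j+1} × {1} ∪ K_j × [0,1]`.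
The union is continuous on `X × [0,1]` because `K_j ⊇ X ∩ ball 0 (j-1)` is a relative neighbourhood of each of its points.
-/

set_option autoImplicit false
open scoped ContDiff Topology
open Set Claimed.Agent.R315

namespace Claimed.Agent.R314

/-- `ext_global` on `E N × ℝ`. -/
theorem ctr_ext {N : ℕ} {X : Set (E N)} (hr : NRetr X) (hfill : ∀ k, Fill k X) {A : Set (E N × ℝ)}
    (hA : IsCompact A) {f : E N × ℝ → E N} (hf : ContinuousOn f A) (hm : MapsTo f A X) :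
    ∃ F : E N × ℝ → E N, Continuous F ∧ (∀ p, F p ∈ X) ∧ EqOn F f A := by
  have e : (E N × ℝ) ≃L[ℝ] (Fin (N + 1) → ℝ) := ContinuousLinearEquiv.ofFinrankEq (by simp)
  have hmp : MapsTo e.symm (e '' A) A := by
    rintro _ ⟨p, hp, rfl⟩
    simpa using hp
  obtain ⟨F, h1, h2, h3⟩ := ext_global hr (fun j _ => hfill j) (A := e '' A) (hA.image e.continuous)
    (f := f ∘ e.symm) (hf.comp e.symm.continuous.continuousOn hmp) (hm.comp hmp)
  refine ⟨F ∘ e, h1.comp e.continuous, fun p => h2 _, fun p hp => ?_⟩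
  have := h3 (mem_image_of_mem e hp)
  simpa using this

/-- one step of the exhaustion. -/
theorem ctr_step {N : ℕ} {X : Set (E N)} (hr : NRetr X) (hfill : ∀ k, Fill k X) {x0 : E N} (hx0 : x0 ∈ X)
    {K K' : Set (E N)} (hK : IsCompact K) (hK' : IsCompact K') (hK'X : K' ⊆ X)
    {H : E N × ℝ → E N} (hH : Continuous H) (hHX : ∀ p, H p ∈ X)
    (h0 : ∀ x ∈ K, H (x, 0) = x) (h1 : ∀ x ∈ K, H (x, 1) = x0) :
    ∃ H' : E N × ℝ → E N, Continuous H' ∧ (∀ p, H' p ∈ X) ∧ (∀ x ∈ K', H' (x, 0) = x) ∧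
      (∀ x ∈ K', H' (x, 1) = x0) ∧ ∀ x ∈ K, ∀ t ∈ Icc (0 : ℝ) 1, H' (x, t) = H (x, t) := by
  classical
  obtain ⟨f, hfdef⟩ : ∃ f : E N × ℝ → E N, f = fun p => if p.2 = 0 then p.1 else if p.2 = 1 then x0 else H p :=
    ⟨_, rfl⟩
  have f0 : ∀ x, f (x, 0) = x := fun x => by simp [hfdef]
  have f1 : ∀ x, f (x, 1) = x0 := fun x => by simp [hfdef]
  have fH : ∀ x ∈ K, ∀ t, f (x, t) = H (x, t) := fun x hx t => by
    by_cases ht0 : t = 0
    · rw [ht0, f0, h0 x hx]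
    by_cases ht1 : t = 1
    · rw [ht1, f1, h1 x hx]
    simp [hfdef, ht0, ht1]
  have c0 : ContinuousOn f (K' ×ˢ ({0} : Set ℝ)) := by
    refine continuous_fst.continuousOn.congr ?_
    rintro ⟨x, t⟩ ⟨_, ht⟩
    rw [mem_singleton_iff] at ht
    simp only at ht
    rw [ht, f0]
  have c1 : ContinuousOn f (K' ×ˢ ({1} : Set ℝ)) := by
    refine (continuousOn_const (c := x0)).congr ?_
    rintro ⟨x, t⟩ ⟨_, ht⟩
    rw [mem_singleton_iff] at ht
    simp only at ht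
    rw [ht, f1]
  have c2 : ContinuousOn f (K ×ˢ Icc (0 : ℝ) 1) := by
    refine hH.continuousOn.congr ?_
    rintro ⟨x, t⟩ ⟨hx, _⟩
    exact fH x hx t
  have k0 : IsCompact (K' ×ˢ ({0} : Set ℝ)) := hK'.prod isCompact_singleton
  have k1 : IsCompact (K' ×ˢ ({1} : Set ℝ)) := hK'.prod isCompact_singleton
  have k2 : IsCompact (K ×ˢ Icc (0 : ℝ) 1) := hK.prod isCompact_Icc
  have cA : ContinuousOn f (K' ×ˢ ({0} : Set ℝ) ∪ K' ×ˢ ({1} : Set ℝ) ∪ K ×ˢ Icc (0 : ℝ) 1) :=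
    (c0.union_of_isClosed c1 k0.isClosed k1.isClosed).union_of_isClosed c2 (k0.union k1).isClosed k2.isClosed
  have mA : MapsTo f (K' ×ˢ ({0} : Set ℝ) ∪ K' ×ˢ ({1} : Set ℝ) ∪ K ×ˢ Icc (0 : ℝ) 1) X := by
    rintro ⟨x, t⟩ ((⟨hx, ht⟩ | ⟨hx, ht⟩) | ⟨hx, ht⟩)
    · rw [mem_singleton_iff] at ht
      simp only at ht hx
      rw [ht, f0]
      exact hK'X hx
    · rw [mem_singleton_iff] at ht
      simp only at ht
      rw [ht, f1]
      exact hx0
    · rw [fH x hx t]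
      exact hHX _
  obtain ⟨F, g1, g2, g3⟩ := ctr_ext hr hfill ((k0.union k1).union k2) cA mA
  refine ⟨F, g1, g2, fun x hx => ?_, fun x hx => ?_, fun x hx t ht => ?_⟩
  · have hm : ((x, 0) : E N × ℝ) ∈ K' ×ˢ ({0} : Set ℝ) := ⟨hx, rfl⟩
    rw [g3 (Or.inl (Or.inl hm)), f0]
  · have hm : ((x, 1) : E N × ℝ) ∈ K' ×ˢ ({1} : Set ℝ) := ⟨hx, rfl⟩
    rw [g3 (Or.inl (Or.inr hm)), f1]
  · have hm : ((x, t) : E N × ℝ) ∈ K ×ˢ Icc (0 : ℝ) 1 := ⟨hx, ht⟩
    rw [g3 (Or.inr hm), fH x hx t]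

/-- **HT2**: a closed neighbourhood retract with all `Fill k` is contractible. -/
theorem contr_main {N : ℕ} {X : Set (E N)} (hc : IsClosed X) (hr : NRetr X) (hfill : ∀ k, Fill k X) :
    ∃ x0 ∈ X, ∃ h : E N × ℝ → E N, ContinuousOn h (X ×ˢ Icc (0 : ℝ) 1) ∧
      MapsTo h (X ×ˢ Icc (0 : ℝ) 1) X ∧ (∀ x ∈ X, h (x, 0) = x) ∧ ∀ x ∈ X, h (x, 1) = x0 := by
  classical
  -- `X` is nonempty
  obtain ⟨x0, hx0⟩ : ∃ x0, x0 ∈ X := by
    obtain ⟨F, _, hF, _⟩ := hfill 0 (fun _ => 0) (by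
      have : cbd 0 = ∅ := by
        ext x
        simp [cbd]
      rw [this]
      exact continuousOn_empty _) (by
      rintro x ⟨_, i, _⟩
      exact i.elim0)
    exact ⟨F 0, hF (by simp [cube])⟩
  refine ⟨x0, hx0, ?_⟩
  obtain ⟨K, hKdef⟩ : ∃ K : ℕ → Set (E N), K = fun j : ℕ => X ∩ Metric.closedBall 0 ((j : ℝ) - 1) := ⟨_, rfl⟩
  have hKc : ∀ j, IsCompact (K j) := fun j => by
    rw [hKdef]
    exact (isCompact_closedBall _ _).inter_left hc
  have hKX : ∀ j, K j ⊆ X := fun j => by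
    rw [hKdef]
    exact inter_subset_left
  have hKmono : ∀ i j, i ≤ j → K i ⊆ K j := fun i j hij => by
    rw [hKdef]
    refine inter_subset_inter_right _ (Metric.closedBall_subset_closedBall ?_)
    have : (i : ℝ) ≤ j := by exact_mod_cast hij
    linarith
  -- the sequence
  let P : ℕ → (E N × ℝ → E N) → Prop := fun j H =>
    Continuous H ∧ (∀ p, H p ∈ X) ∧ (∀ x ∈ K j, H (x, 0) = x) ∧ (∀ x ∈ K j, H (x, 1) = x0)
  have base : P 0 (fun _ => x0) := by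
    have h0 : K 0 = ∅ := by
      rw [hKdef]
      simp
    refine ⟨continuous_const, fun _ => hx0, ?_, ?_⟩ <;>
    · intro x hx
      exact absurd (h0 ▸ hx) (notMem_empty _)
  have step : ∀ j (H : {H // P j H}), ∃ H' : {H // P (j + 1) H},
      ∀ x ∈ K j, ∀ t ∈ Icc (0 : ℝ) 1, H'.1 (x, t) = H.1 (x, t) := by
    rintro j ⟨H, a1, a2, a3, a4⟩
    obtain ⟨H', b1, b2, b3, b4, b5⟩ := ctr_step hr hfill hx0 (hKc j) (hKc (j + 1)) (hKX _) a1 a2 a3 a4
    exact ⟨⟨H', b1, b2, b3, b4⟩, b5⟩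
  let Hs : (j : ℕ) → {H // P j H} := fun j => Nat.rec ⟨_, base⟩ (fun j H => Classical.choose (step j H)) j
  have hHs : ∀ j, ∀ x ∈ K j, ∀ t ∈ Icc (0 : ℝ) 1, (Hs (j + 1)).1 (x, t) = (Hs j).1 (x, t) := fun j =>
    Classical.choose_spec (step j (Hs j))
  have hchain : ∀ i j, i ≤ j → ∀ x ∈ K i, ∀ t ∈ Icc (0 : ℝ) 1, (Hs j).1 (x, t) = (Hs i).1 (x, t) := by
    intro i j hij
    induction j, hij using Nat.le_induction with
    | base => intro x _ t _; rfl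
    | succ j hij ih =>
      intro x hx t ht
      rw [hHs j x (hKmono i j hij hx) t ht, ih x hx t ht]
  -- the index of a point
  let ix : E N → ℕ := fun x => ⌈‖x‖⌉₊ + 1
  have hix : ∀ x ∈ X, x ∈ K (ix x) := fun x hx => by
    rw [hKdef]
    refine ⟨hx, ?_⟩
    rw [mem_closedBall_zero_iff]
    have := Nat.le_ceil ‖x‖
    simp only [ix]
    push_cast
    linarith
  let h : E N × ℝ → E N := fun p => (Hs (ix p.1)).1 p
  have hh : ∀ j, ∀ x ∈ K j, ∀ t ∈ Icc (0 : ℝ) 1, h (x, t) = (Hs j).1 (x, t) := by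
    intro j x hx t ht
    rcases le_total j (ix x) with hj | hj
    · exact hchain j (ix x) hj x hx t ht
    · exact (hchain (ix x) j hj x (hix x (hKX j hx)) t ht).symm
  refine ⟨h, ?_, fun p _ => (Hs (ix p.1)).2.2.1 p, fun x hx => (Hs (ix x)).2.2.2.1 x (hix x hx),
    fun x hx => (Hs (ix x)).2.2.2.2 x (hix x hx)⟩
  rintro ⟨x, t⟩ ⟨hx, ht⟩
  simp only at hx ht
  -- near `x` everything lies in `K (ix x + 1)`
  have hcont : ContinuousWithinAt (Hs (ix x + 1)).1 (X ×ˢ Icc (0 : ℝ) 1) (x, t) :=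
    (Hs (ix x + 1)).2.1.continuousWithinAt
  refine hcont.congr_of_eventuallyEq ?_ (hh _ x (hKmono _ _ (Nat.le_succ _) (hix x hx)) t ht)
  have hopen : IsOpen {p : E N × ℝ | ‖p.1‖ < (ix x : ℝ)} :=
    isOpen_lt (continuous_norm.comp continuous_fst) continuous_const
  have hmem : (x, t) ∈ {p : E N × ℝ | ‖p.1‖ < (ix x : ℝ)} := by
    show ‖x‖ < (ix x : ℝ)
    have := Nat.le_ceil ‖x‖
    simp only [ix]
    push_cast
    linarith
  filter_upwards [mem_nhdsWithin_of_mem_nhds (hopen.mem_nhds hmem), self_mem_nhdsWithin] with p hp hp'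
  obtain ⟨y, s⟩ := p
  refine hh (ix x + 1) y ?_ s hp'.2
  rw [hKdef]
  refine ⟨hp'.1, ?_⟩
  rw [mem_closedBall_zero_iff]
  have : ‖y‖ < (ix x : ℝ) := hp
  push_cast
  linarith

end Claimed.Agent.R314
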