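import Claimed.Agent.R314.T.Tub
import Claimed.Agent.R314.DG.Main
import Claimed.Agent.R314.DG.Pn

/-!
# Row 314, block T, package DG (architect + prover helper62; chief helper129): the degree step

EXIT `dg_main` (PROVED from `tub_main`; the only open input is TUB).
NOTE: the hypothesis `0 ≤ C3` is needed (for `R < 0` the ball is empty and every other hypothesis is void).

Files: `DG/Euc.lean` (`dg_euc`: a continuous self map of `E N` which is the identity off a bounded set is onto; Euclidean collar core),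
`DG/Abs.lean` (`dg_abs`: thickening of a homotopy `D × [0,1] → X` to the tube, with products of normal projections),
`DG/Main.lean` (`dg_of_tub`: the metric form), `DG/Pn.lean` (`dgPn`: the normal projection, continuous on `X` by the Gram formula).
-/

set_option autoImplicit false
open scoped ContDiff Topology
open Set Claimed.Agent.R315

namespace Claimed.Agent.R314

/-- the tube data in the form consumed by `dg_of_tub`. -/
theorem dg_tub {n N : ℕ} {X : Set (E N)} (hM : IsMfd n X) (hc : IsClosed X) : DgTub X := by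
  obtain ⟨O, π, h⟩ := tub_main hM hc
  refine ⟨dgPn n X, O, π, dg_Pn_cont hM, fun x _ v => dg_Pn_idem X x v, fun x _ v => dg_Pn_norm_le X x v,
    h.isOpen, h.sub, h.cont, h.maps, h.fix, fun y hy => (dg_Pn_eq_iff X _ _).2 (h.nor y hy), fun K hK hKX => ?_⟩
  obtain ⟨r, hr, H⟩ := h.unif K hK hKX
  exact ⟨r, hr, fun x hx v hv hvr => H x hx v ((dg_Pn_eq_iff X x v).1 hv) hvr⟩

/-- **DG**: a homotopy of the inclusion of a large ball with bounded displacement stays onto in the middle. -/
theorem dg_main {n N : ℕ} {X : Set (E N)} {g : Ten (E N)} (hM : IsMfd n X) (hc : IsClosed X)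
    (hconn : IsConnected X) (hg : IsMetricOn n X g) (hp : IsProperOn X g) {x0 : E N} (hx0 : x0 ∈ X)
    {R C3 : ℝ} (hC3 : 0 ≤ C3) {H : E N × ℝ → E N} (hH : ContinuousOn H (cb X g x0 R ×ˢ Icc (0 : ℝ) 1))
    (hm : MapsTo H (cb X g x0 R ×ˢ Icc (0 : ℝ) 1) X) (h0 : ∀ x ∈ cb X g x0 R, H (x, 0) = x)
    (hd : ∀ x ∈ cb X g x0 R, ∀ t ∈ Icc (0 : ℝ) 1, rdist X g x (H (x, t)) ≤ C3)
    {q : E N} (hq : q ∈ X) (hqR : rdist X g x0 q + C3 < R) :
    ∃ x ∈ cb X g x0 R, H (x, 1) = q :=
  dg_of_tub (dg_tub hM hc) hM hconn.isPreconnected hg hp hx0 hq hC3 H hH hm h0 hd hqR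

end Claimed.Agent.R314
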