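import Mathlib

/-!
# Row 314, block T, package CONE (architect helper10, prefix `cn`): explicit coning, abstract form

Setting: `Y` a topological space with a continuous proper "distance" `d : Y → Y → ℝ` (`IsPD d`), uniformly contractible
(`UCtr d Φ`: at every point a GLOBAL contraction `κ` of `Y` with control function `Φ`), and a bounded locally finite open
cover of finite multiplicity (`BCov d U k C`).

* `θ i = min 1 (k * ρ i)` for a partition of unity `ρ` subordinate to `U`: at every point some `θ i` equals `1`.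
* `cnFold κ a L z = κ_{j0}(κ_{j1}(… κ_{jm}(z, a jm) …, a j1), a j0)` for a list `L = [j0, …, jm]`.
  `κ j · 0 = id`: indices with `a j = 0` drop out, so locally one folds over ONE finite sorted list: continuity is a
  finite composition.  `κ j · 1 = const`: the fold does not depend on `z` as soon as some `a j = 1`.
* `cn_homotopy` (E1): every continuous self map at bounded distance from the identity is homotopic to the identity
  with bounded displacement.
* `cn_factor` (E2): a continuous self map `F` at bounded distance from the identity which on compact sets factors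
  through the union `cnP k J` of cubes of dimension `≤ k - 1`.
-/

set_option autoImplicit false
set_option linter.unusedSectionVars false
open Set Topology

namespace Claimed.Agent.R314

variable {Y : Type} [TopologicalSpace Y]

/-- continuous proper distance function. -/
structure IsPD (d : Y → Y → ℝ) : Prop where
  cont : Continuous fun p : Y × Y => d p.1 p.2
  self : ∀ x, d x x = 0
  symm : ∀ x y, d x y = d y x
  tri : ∀ x y z, d x z ≤ d x y + d y z
  proper : ∀ x R, IsCompact {y | d x y ≤ R}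

/-- uniform contractibility: at every point a global contraction with control function `Φ`. -/
def UCtr (d : Y → Y → ℝ) (Φ : ℝ → ℝ) : Prop :=
  ∀ x : Y, ∃ κ : Y → ℝ → Y, Continuous (fun p : Y × ℝ => κ p.1 p.2) ∧ (∀ y, κ y 0 = y) ∧
    (∃ c, ∀ y, κ y 1 = c) ∧ ∀ R y s, d x y ≤ R → s ∈ Icc (0 : ℝ) 1 → d x (κ y s) ≤ Φ R

/-- bounded locally finite open cover of multiplicity `≤ k`. -/
structure BCov (d : Y → Y → ℝ) {ι : Type} (U : ι → Set Y) (k : ℕ) (C : ℝ) : Prop where
  isOpen : ∀ i, IsOpen (U i)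
  cover : ∀ y, ∃ i, y ∈ U i
  locFin : LocallyFinite U
  mult : ∀ y (s : Finset ι), (∀ i ∈ s, y ∈ U i) → s.card ≤ k
  diam : ∀ i, ∀ y ∈ U i, ∀ z ∈ U i, d y z ≤ C

/-- the union of the cubes of dimension `≤ k - 1`: points of `[0,1]^J` with some coordinate `1` and at most `k` nonzero
coordinates. -/
def cnP (k : ℕ) (J : Type) [Fintype J] : Set (J → ℝ) :=
  {a | (∀ j, a j ∈ Icc (0 : ℝ) 1) ∧ (∃ j, a j = 1) ∧
    ∀ s : Finset J, (∀ j ∈ s, a j ≠ 0) → s.card ≤ k}

theorem IsPD.nonneg {d : Y → Y → ℝ} (h : IsPD d) (x y : Y) : 0 ≤ d x y := by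
  have := h.tri x y x
  rw [h.self, h.symm y x] at this
  linarith

/-! ### the fold -/

section fold

variable {ι : Type}

/-- iterated contraction along a list of indices. -/
def cnFold (κ : ι → Y → ℝ → Y) (a : ι → ℝ) (L : List ι) (z : Y) : Y :=
  L.foldr (fun j w => κ j w (a j)) z

@[simp] theorem cnFold_nil (κ : ι → Y → ℝ → Y) (a : ι → ℝ) (z : Y) : cnFold κ a [] z = z := rfl

@[simp] theorem cnFold_cons (κ : ι → Y → ℝ → Y) (a : ι → ℝ) (j : ι) (L : List ι) (z : Y) :
    cnFold κ a (j :: L) z = κ j (cnFold κ a L z) (a j) := rfl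

theorem cnFold_congr (κ : ι → Y → ℝ → Y) {a b : ι → ℝ} {L : List ι} (h : ∀ j ∈ L, a j = b j) (z : Y) :
    cnFold κ a L z = cnFold κ b L z := by
  induction L with
  | nil => rfl
  | cons j L ih =>
    rw [cnFold_cons, cnFold_cons, ih fun i hi => h i (List.mem_cons_of_mem _ hi),
      h j List.mem_cons_self]

/-- indices with parameter `0` drop out. -/
theorem cnFold_filter {κ : ι → Y → ℝ → Y} (h0 : ∀ i y, κ i y 0 = y) (a : ι → ℝ) (P : ι → Bool)
    (L : List ι) (h : ∀ j ∈ L, P j = false → a j = 0) (z : Y) :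
    cnFold κ a (L.filter P) z = cnFold κ a L z := by
  induction L with
  | nil => rfl
  | cons j L ih =>
    have ih' := ih fun i hi => h i (List.mem_cons_of_mem _ hi)
    by_cases hj : P j = true
    · rw [List.filter_cons_of_pos hj, cnFold_cons, cnFold_cons, ih']
    · have hj' : P j = false := by simpa using hj
      rw [List.filter_cons_of_neg hj, cnFold_cons, ih', h j List.mem_cons_self hj', h0]

/-- the fold forgets its argument as soon as one parameter equals `1`. -/
theorem cnFold_const {κ : ι → Y → ℝ → Y} (h1 : ∀ i, ∃ c, ∀ y, κ i y 1 = c) (a : ι → ℝ)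
    (L : List ι) (h : ∃ j ∈ L, a j = 1) (z z' : Y) :
    cnFold κ a L z = cnFold κ a L z' := by
  induction L with
  | nil => obtain ⟨j, hj, -⟩ := h; simp at hj
  | cons j L ih =>
    rw [cnFold_cons, cnFold_cons]
    by_cases hj : a j = 1
    · obtain ⟨c, hc⟩ := h1 j
      rw [hj, hc, hc]
    · obtain ⟨i, hi, hi1⟩ := h
      rcases List.mem_cons.1 hi with rfl | hi'
      · exact absurd hi1 hj
      · rw [ih ⟨i, hi', hi1⟩]

theorem cnFold_continuous {T : Type} [TopologicalSpace T] {κ : ι → Y → ℝ → Y}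
    (hc : ∀ i, Continuous fun p : Y × ℝ => κ i p.1 p.2) {a : ι → T → ℝ} (L : List ι)
    (ha : ∀ i ∈ L, Continuous (a i)) {z : T → Y} (hz : Continuous z) :
    Continuous fun t => cnFold κ (fun i => a i t) L (z t) := by
  induction L with
  | nil => simpa using hz
  | cons j L ih =>
    have ih' := ih fun i hi => ha i (List.mem_cons_of_mem _ hi)
    simp only [cnFold_cons]
    exact (hc j).comp (ih'.prodMk (ha j List.mem_cons_self))

end fold

variable {ι : Type}



section loc
variable [LinearOrder ι] {U : ι → Set Y}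

open Classical in
theorem cn_sort_filter (J S : Finset ι) (hS : S ⊆ J) :
    (J.sort (· ≤ ·)).filter (fun i => decide (i ∈ S)) = S.sort (· ≤ ·) := by
  apply List.Perm.eq_of_pairwise' (r := (· ≤ ·))
  · exact (Finset.pairwise_sort J (· ≤ ·)).filter _
  · exact Finset.pairwise_sort S (· ≤ ·)
  · rw [List.perm_ext_iff_of_nodup ((Finset.sort_nodup J _).filter _) (Finset.sort_nodup S _)]
    intro i
    simp only [List.mem_filter, Finset.mem_sort, decide_eq_true_eq]
    exact ⟨fun h => h.2, fun h => ⟨hS h, h⟩⟩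

/-- the fold over the (sorted) indices of the members of the cover which contain `y`. -/
noncomputable def cnLoc (hf : LocallyFinite U) (κ : ι → Y → ℝ → Y) (a : ι → ℝ) (y z : Y) : Y :=
  cnFold κ a ((hf.point_finite y).toFinset.sort (· ≤ ·)) z

open Classical in
theorem cnLoc_eq (hf : LocallyFinite U) {κ : ι → Y → ℝ → Y} (h0 : ∀ i y, κ i y 0 = y) {a : ι → ℝ} {y : Y}
    (ha : ∀ i, y ∉ U i → a i = 0) (J : Finset ι) (hJ : ∀ i, y ∈ U i → i ∈ J) (z : Y) :
    cnLoc hf κ a y z = cnFold κ a (J.sort (· ≤ ·)) z := by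
  have hS : (hf.point_finite y).toFinset ⊆ J := by
    intro i hi
    exact hJ i (by simpa using hi)
  unfold cnLoc
  rw [← cn_sort_filter J _ hS]
  apply cnFold_filter h0
  intro j _ hj
  apply ha
  simpa using hj

theorem cnLoc_continuous {T : Type} [TopologicalSpace T] (hf : LocallyFinite U) {κ : ι → Y → ℝ → Y}
    (hc : ∀ i, Continuous fun p : Y × ℝ => κ i p.1 p.2) (h0 : ∀ i y, κ i y 0 = y)
    {π : T → Y} (hπ : Continuous π) {a : ι → T → ℝ} (ha : ∀ i, Continuous (a i))
    (ha0 : ∀ i t, π t ∉ U i → a i t = 0) {z : T → Y} (hz : Continuous z) :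
    Continuous fun t => cnLoc hf κ (fun i => a i t) (π t) (z t) := by
  rw [continuous_iff_continuousAt]
  intro t0
  obtain ⟨W, hW, hfin⟩ := hf (π t0)
  set J : Finset ι := hfin.toFinset with hJ
  have hcont : Continuous fun t => cnFold κ (fun i => a i t) (J.sort (· ≤ ·)) (z t) :=
    cnFold_continuous hc _ (fun i _ => ha i) hz
  refine hcont.continuousAt.congr ?_
  filter_upwards [hπ.continuousAt hW] with t ht
  symm
  apply cnLoc_eq hf h0 (fun i hi => ha0 i t hi)
  intro i hi
  rw [hJ, Finite.mem_toFinset]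
  exact ⟨π t, hi, ht⟩

end loc




/-- the radii of the displacement estimate. -/
noncomputable def cnRad (Φ : ℝ → ℝ) (C R0 : ℝ) : ℕ → ℝ
  | 0 => R0
  | l + 1 => max (cnRad Φ C R0 l) (Φ (cnRad Φ C R0 l) + 2 * C)

theorem cnRad_mono (Φ : ℝ → ℝ) (C R0 : ℝ) : Monotone (cnRad Φ C R0) :=
  monotone_nat_of_le_succ fun _ => le_max_left _ _

theorem cnFold_dist {d : Y → Y → ℝ} (hd : IsPD d) {Φ : ℝ → ℝ} {C : ℝ} {x : ι → Y} {κ : ι → Y → ℝ → Y}
    (hΦ : ∀ i R y s, d (x i) y ≤ R → s ∈ Icc (0 : ℝ) 1 → d (x i) (κ i y s) ≤ Φ R)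
    {A : Set ι} (hA : ∀ i ∈ A, ∀ j ∈ A, d (x i) (x j) ≤ 2 * C) {a : ι → ℝ} (ha : ∀ i, a i ∈ Icc (0 : ℝ) 1)
    (L : List ι) (hL : ∀ i ∈ L, i ∈ A) {z : Y} {R0 : ℝ} (hz : ∀ i ∈ A, d (x i) z ≤ R0) :
    ∀ i ∈ A, d (x i) (cnFold κ a L z) ≤ cnRad Φ C R0 L.length := by
  induction L with
  | nil => simpa [cnRad] using hz
  | cons j L ih =>
    have ih' := ih fun i hi => hL i (List.mem_cons_of_mem _ hi)
    have hj : j ∈ A := hL j List.mem_cons_self
    intro i hi
    rw [cnFold_cons, List.length_cons]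
    have h1 : d (x j) (κ j (cnFold κ a L z) (a j)) ≤ Φ (cnRad Φ C R0 L.length) :=
      hΦ j _ _ _ (ih' j hj) (ha j)
    have h2 := hd.tri (x i) (x j) (κ j (cnFold κ a L z) (a j))
    have h3 := hA i hi j hj
    calc d (x i) (κ j (cnFold κ a L z) (a j)) ≤ Φ (cnRad Φ C R0 L.length) + 2 * C := by linarith
      _ ≤ cnRad Φ C R0 (L.length + 1) := le_max_right _ _

/-- the data of the construction. -/
structure IsCnData (d : Y → Y → ℝ) (Φ : ℝ → ℝ) (U : ι → Set Y) (C : ℝ) (x : ι → Y) (κ : ι → Y → ℝ → Y)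
    (θ : ι → Y → ℝ) : Prop where
  κc : ∀ i, Continuous fun p : Y × ℝ => κ i p.1 p.2
  κ0 : ∀ i y, κ i y 0 = y
  κ1 : ∀ i, ∃ c, ∀ y, κ i y 1 = c
  κΦ : ∀ i R y s, d (x i) y ≤ R → s ∈ Icc (0 : ℝ) 1 → d (x i) (κ i y s) ≤ Φ R
  xU : ∀ i y, y ∈ U i → d (x i) y ≤ C
  θc : ∀ i, Continuous (θ i)
  θ01 : ∀ i y, θ i y ∈ Icc (0 : ℝ) 1
  θU : ∀ i y, y ∉ U i → θ i y = 0
  θ1 : ∀ y, ∃ i, θ i y = 1

theorem cn_exists_data [NormalSpace Y] [Nonempty Y] {d : Y → Y → ℝ} {Φ : ℝ → ℝ} {U : ι → Set Y} {k : ℕ} {C : ℝ}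
    (hu : UCtr d Φ) (hU : BCov d U k C) : ∃ x κ θ, IsCnData d Φ U C x κ θ := by
  classical
  obtain ⟨y0⟩ := ‹Nonempty Y›
  set x : ι → Y := fun i => if h : (U i).Nonempty then h.some else y0 with hx
  choose κ hκc hκ0 hκ1 hκΦ using fun i => hu (x i)
  obtain ⟨ρ, hρ⟩ := BumpCovering.exists_isSubordinate_of_locallyFinite isClosed_univ U hU.isOpen hU.locFin
    (fun y _ => mem_iUnion.2 (hU.cover y))
  have hρU : ∀ i y, y ∉ U i → ρ i y = 0 := by
    intro i y hy
    by_contra hne
    exact hy (hρ i (subset_tsupport _ hne))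
  refine ⟨x, κ, fun i y => ρ i y, hκc, hκ0, hκ1, hκΦ, ?_, ?_, ?_, hρU, ?_⟩
  · intro i y hy
    have hne : (U i).Nonempty := ⟨y, hy⟩
    have : x i ∈ U i := by
      simp only [hx, dif_pos hne]
      exact hne.some_mem
    exact hU.diam i _ this _ hy
  · intro i
    exact (ρ i).continuous
  · intro i y
    exact ⟨ρ.nonneg i y, ρ.le_one i y⟩
  · intro y
    exact ⟨_, (ρ.eventuallyEq_one y (mem_univ y)).eq_of_nhds⟩




theorem cnFold_zero {κ : ι → Y → ℝ → Y} (h0 : ∀ i y, κ i y 0 = y) {a : ι → ℝ} (L : List ι)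
    (h : ∀ j ∈ L, a j = 0) (z : Y) : cnFold κ a L z = z := by
  induction L with
  | nil => rfl
  | cons j L ih =>
    rw [cnFold_cons, ih fun i hi => h i (List.mem_cons_of_mem _ hi), h j List.mem_cons_self, h0]

section main
variable [LinearOrder ι] {d : Y → Y → ℝ} {Φ : ℝ → ℝ} {U : ι → Set Y} {k : ℕ} {C : ℝ} {x : ι → Y}
  {κ : ι → Y → ℝ → Y} {θ : ι → Y → ℝ}

theorem cnLoc_dist (hd : IsPD d) (hU : BCov d U k C) (hD : IsCnData d Φ U C x κ θ) {a : ι → ℝ}
    (ha : ∀ i, a i ∈ Icc (0 : ℝ) 1) {y z : Y} {R : ℝ} (hz : d y z ≤ R) :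
    d y (cnLoc hU.locFin κ a y z) ≤ C + cnRad Φ C (C + R) k := by
  set A : Set ι := {i | y ∈ U i} with hA
  have h1 : ∀ i ∈ A, ∀ j ∈ A, d (x i) (x j) ≤ 2 * C := by
    intro i hi j hj
    have := hd.tri (x i) y (x j)
    have h2 := hD.xU i y hi
    have h3 := hD.xU j y hj
    rw [hd.symm (x j) y] at h3
    linarith
  have h2 : ∀ i ∈ A, d (x i) z ≤ C + R := by
    intro i hi
    have := hd.tri (x i) y z
    have h2 := hD.xU i y hi
    linarith
  have hL : ∀ i ∈ (hU.locFin.point_finite y).toFinset.sort (· ≤ ·), i ∈ A := by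
    intro i hi
    simpa [hA] using hi
  have h3 := cnFold_dist hd hD.κΦ h1 ha _ hL h2
  obtain ⟨i, hi⟩ := hU.cover y
  have h4 := h3 i hi
  have hlen : ((hU.locFin.point_finite y).toFinset.sort (· ≤ ·)).length ≤ k := by
    rw [Finset.length_sort]
    exact hU.mult y _ fun i hi => by simpa using hi
  have h5 := cnRad_mono Φ C (C + R) hlen
  have h6 := hd.tri y (x i) (cnLoc hU.locFin κ a y z)
  have h7 := hD.xU i y hi
  rw [hd.symm (x i) y] at h7
  unfold cnLoc at h6 ⊢
  linarith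

theorem cnLoc_const (hU : BCov d U k C) (hD : IsCnData d Φ U C x κ θ) (y z z' : Y) :
    cnLoc hU.locFin κ (fun i => θ i y) y z = cnLoc hU.locFin κ (fun i => θ i y) y z' := by
  obtain ⟨i, hi⟩ := hD.θ1 y
  apply cnFold_const hD.κ1
  refine ⟨i, ?_, hi⟩
  have : y ∈ U i := by
    by_contra h
    rw [hD.θU i y h] at hi
    exact zero_ne_one hi
  simpa using this

theorem cn_homotopy_aux (hd : IsPD d) (hU : BCov d U k C) (hD : IsCnData d Φ U C x κ θ) {C2 : ℝ}
    {G : Y → Y} (hG : Continuous G) (hG2 : ∀ y, d y (G y) ≤ C2) :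
    ∃ H : Y × ℝ → Y, Continuous H ∧ (∀ y, H (y, 0) = y) ∧ (∀ y, H (y, 1) = G y) ∧
      ∀ y, ∀ t ∈ Icc (0 : ℝ) 1, d y (H (y, t)) ≤ C + cnRad Φ C (C + C2) k := by
  classical
  refine ⟨fun p => if p.2 ≤ 1 / 2 then cnLoc hU.locFin κ (fun i => 2 * p.2 * θ i p.1) p.1 p.1
    else cnLoc hU.locFin κ (fun i => (2 - 2 * p.2) * θ i p.1) p.1 (G p.1), ?_, ?_, ?_, ?_⟩
  · apply Continuous.if_le _ _ continuous_snd continuous_const
    · rintro ⟨y, t⟩ ht
      simp only at ht
      subst ht
      have e1 : (fun i => 2 * (1 / 2 : ℝ) * θ i y) = fun i => θ i y := by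
        funext i; ring
      have e2 : (fun i => (2 - 2 * (1 / 2 : ℝ)) * θ i y) = fun i => θ i y := by
        funext i; ring
      simp only [e1, e2]
      exact cnLoc_const hU hD y _ _
    · apply cnLoc_continuous hU.locFin hD.κc hD.κ0 continuous_fst
        (a := fun i (p : Y × ℝ) => 2 * p.2 * θ i p.1) _ _ continuous_fst
      · intro i
        exact (continuous_const.mul continuous_snd).mul ((hD.θc i).comp continuous_fst)
      · intro i p hp
        simp only [hD.θU i p.1 hp, mul_zero]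
    · apply cnLoc_continuous hU.locFin hD.κc hD.κ0 continuous_fst
        (a := fun i (p : Y × ℝ) => (2 - 2 * p.2) * θ i p.1) _ _ (hG.comp continuous_fst)
      · intro i
        exact (continuous_const.sub (continuous_const.mul continuous_snd)).mul
          ((hD.θc i).comp continuous_fst)
      · intro i p hp
        simp only [hD.θU i p.1 hp, mul_zero]
  · intro y
    have : (0 : ℝ) ≤ 1 / 2 := by norm_num
    simp only [this, if_true]
    exact cnFold_zero hD.κ0 _ (fun j _ => by ring) _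
  · intro y
    have : ¬ (1 : ℝ) ≤ 1 / 2 := by norm_num
    simp only [this, if_false]
    exact cnFold_zero hD.κ0 _ (fun j _ => by ring) _
  · intro y t ht
    have hC2 : 0 ≤ C2 := (hd.nonneg y (G y)).trans (hG2 y)
    by_cases h : t ≤ 1 / 2
    · simp only [h, if_true]
      apply cnLoc_dist hd hU hD _ (by rw [hd.self]; exact hC2)
      intro i
      have := hD.θ01 i y
      constructor
      · exact mul_nonneg (by linarith [ht.1]) this.1
      · calc 2 * t * θ i y ≤ 1 * 1 := by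
              apply mul_le_mul (by linarith) this.2 this.1 zero_le_one
          _ = 1 := one_mul 1
    · simp only [h, if_false]
      apply cnLoc_dist hd hU hD _ (hG2 y)
      intro i
      have := hD.θ01 i y
      push_neg at h
      constructor
      · exact mul_nonneg (by linarith [ht.2]) this.1
      · calc (2 - 2 * t) * θ i y ≤ 1 * 1 := by
              apply mul_le_mul (by linarith) this.2 this.1 zero_le_one
          _ = 1 := one_mul 1

end main




section main
variable [LinearOrder ι] {d : Y → Y → ℝ} {Φ : ℝ → ℝ} {U : ι → Set Y} {k : ℕ} {C : ℝ} {x : ι → Y}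
  {κ : ι → Y → ℝ → Y} {θ : ι → Y → ℝ}

theorem cn_factor_aux (hd : IsPD d) (hU : BCov d U k C) (hD : IsCnData d Φ U C x κ θ) (y0 : Y) :
    ∃ F : Y → Y, Continuous F ∧ (∀ y, d y (F y) ≤ C + cnRad Φ C (C + 0) k) ∧
      ∀ Ω : Set Y, IsCompact Ω → ∃ (J : Type) (_ : Fintype J) (Θ : Y → J → ℝ) (g : (J → ℝ) → Y),
        Continuous Θ ∧ Continuous g ∧ ∀ y ∈ Ω, F y = g (Θ y) ∧ Θ y ∈ cnP k J := by
  classical
  refine ⟨fun y => cnLoc hU.locFin κ (fun i => θ i y) y y, ?_, ?_, ?_⟩
  · exact cnLoc_continuous hU.locFin hD.κc hD.κ0 continuous_id (a := fun i y => θ i y) hD.θc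
      (fun i y hy => hD.θU i y hy) continuous_id
  · intro y
    exact cnLoc_dist hd hU hD (fun i => hD.θ01 i y) (by rw [hd.self])
  · intro Ω hΩ
    set Jf : Finset ι := (hU.locFin.finite_nonempty_inter_compact hΩ).toFinset with hJf
    have hmem : ∀ y ∈ Ω, ∀ i, y ∈ U i → i ∈ Jf := by
      intro y hy i hi
      rw [hJf, Finite.mem_toFinset]
      exact ⟨y, hi, hy⟩
    refine ⟨{i // i ∈ Jf}, inferInstance, fun y j => θ j.1 y,
      fun b => cnFold κ (fun i => if h : i ∈ Jf then b ⟨i, h⟩ else 0) (Jf.sort (· ≤ ·)) y0, ?_, ?_, ?_⟩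
    · exact continuous_pi fun j => hD.θc j.1
    · apply cnFold_continuous hD.κc (a := fun i (b : {i // i ∈ Jf} → ℝ) => if h : i ∈ Jf then b ⟨i, h⟩ else 0)
        _ _ continuous_const
      intro i _
      by_cases h : i ∈ Jf
      · simp only [h, dif_pos]
        exact continuous_apply _
      · simp only [h, dif_neg, not_false_eq_true]
        exact continuous_const
    · intro y hy
      obtain ⟨i1, hi1⟩ := hD.θ1 y
      have hi1U : y ∈ U i1 := by
        by_contra h
        rw [hD.θU i1 y h] at hi1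
        exact zero_ne_one hi1
      constructor
      · show cnLoc hU.locFin κ (fun i => θ i y) y y =
          cnFold κ (fun i => if h : i ∈ Jf then θ i y else 0) (Jf.sort (· ≤ ·)) y0
        rw [cnLoc_eq hU.locFin hD.κ0 (fun i hi => hD.θU i y hi) Jf (hmem y hy)]
        rw [cnFold_const hD.κ1 _ _ ⟨i1, by simpa using hmem y hy i1 hi1U, hi1⟩ y y0]
        apply cnFold_congr
        intro j hj
        have : j ∈ Jf := by simpa using hj
        simp only [this, dif_pos]
      · refine ⟨fun j => hD.θ01 j.1 y, ⟨⟨i1, hmem y hy i1 hi1U⟩, hi1⟩, ?_⟩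
        intro s hs
        have := hU.mult y (s.map (Function.Embedding.subtype _)) (by
          intro i hi
          obtain ⟨j, hj, rfl⟩ := Finset.mem_map.1 hi
          by_contra h
          exact hs j hj (hD.θU _ y h))
        simpa using this

end main

/-- **(E1)** every continuous self map at bounded distance from the identity is homotopic to the identity with bounded
displacement. -/
theorem cn_homotopy [NormalSpace Y] {d : Y → Y → ℝ} {Φ : ℝ → ℝ} {ι : Type} {U : ι → Set Y} {k : ℕ} {C : ℝ}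
    (hd : IsPD d) (hu : UCtr d Φ) (hU : BCov d U k C) (C2 : ℝ) :
    ∃ C3 : ℝ, ∀ G : Y → Y, Continuous G → (∀ y, d y (G y) ≤ C2) →
      ∃ H : Y × ℝ → Y, Continuous H ∧ (∀ y, H (y, 0) = y) ∧ (∀ y, H (y, 1) = G y) ∧
        ∀ y, ∀ t ∈ Icc (0 : ℝ) 1, d y (H (y, t)) ≤ C3 := by
  rcases isEmpty_or_nonempty Y with hE | hN
  · exact ⟨0, fun G _ _ => ⟨fun p => p.1, continuous_fst, fun y => (hE.false y).elim,
      fun y => (hE.false y).elim, fun y => (hE.false y).elim⟩⟩
  · obtain ⟨x, κ, θ, hD⟩ := cn_exists_data hu hU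
    obtain ⟨_, -⟩ := exists_wellOrder ι
    exact ⟨_, fun G hG hG2 => cn_homotopy_aux hd hU hD hG hG2⟩

/-- **(E2)** a continuous self map at bounded distance from the identity which on compact sets factors through a finite
union of cubes of dimension `≤ k - 1`. -/
theorem cn_factor [NormalSpace Y] [Nonempty Y] {d : Y → Y → ℝ} {Φ : ℝ → ℝ} {ι : Type} {U : ι → Set Y} {k : ℕ} {C : ℝ}
    (hd : IsPD d) (hu : UCtr d Φ) (hU : BCov d U k C) :
    ∃ (D : ℝ) (F : Y → Y), Continuous F ∧ (∀ y, d y (F y) ≤ D) ∧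
      ∀ Ω : Set Y, IsCompact Ω → ∃ (J : Type) (_ : Fintype J) (Θ : Y → J → ℝ) (g : (J → ℝ) → Y),
        Continuous Θ ∧ Continuous g ∧ ∀ y ∈ Ω, F y = g (Θ y) ∧ Θ y ∈ cnP k J := by
  obtain ⟨x, κ, θ, hD⟩ := cn_exists_data hu hU
  obtain ⟨_, -⟩ := exists_wellOrder ι
  obtain ⟨y0⟩ := ‹Nonempty Y›
  obtain ⟨F, h⟩ := cn_factor_aux hd hU hD y0
  exact ⟨_, F, h⟩

end Claimed.Agent.R314
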