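import Claimed.Agent.R314.Defs
import Claimed.Agent.R314.T.Cone

/-!
# Row 314, block T, package NV (helper36; chief helper129): a map through a low dimensional set misses a point

Abstract form, no open leaf.
* `nvP κ k`, `nv_dimH_P`, `nv_dimH_P_lt`, `nvP_isClosed` : the parameter set of the folded contractions (some coordinate `1`, at most `k` non-zero
  coordinates) is closed, of Hausdorff dimension `≤ k - 1`.
* `nv_approx` : smooth approximation of a map which is continuous on a closed set.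
* `nv_cut` : surgery in one chart ball.
* `nv_abs` : (E3 + glue) `Y` with a continuous proper distance function and one `n`-dimensional chart, such that every continuous self map at bounded
  distance from the identity is onto.  Then no continuous self map `F` at bounded distance from the identity factors on compact sets through closed
  sets of Hausdorff dimension `< n`.
  PROOF.  Chart ball `B = Φ.symm '' closedBall u0 (3ρ)`, of `d`-radius `DB` around `p`.  `F ⁻¹' B` lies in the compact ball `Om` of radius `DB + D`; there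
  `F = g ∘ Θ`, `Θ y ∈ K`.  `f'` smooth, `ρ/2`-close to `Φ ∘ g` on `K ∩ g ⁻¹' (ball of radius 2ρ)`; `f' '' K` has dense complement: `u1`.
  `nv_cut` changes `F` inside `B` to a map which misses `Φ.symm u1`, still at bounded distance from the identity.
* `nv_chart` : the chart of `↥X` given by a parametrisation.
* `nv_no_bcov` : `nv_abs` + `cn_factor` (CONE, helper10): no bounded cover of multiplicity `≤ n`.
-/

set_option autoImplicit false
open scoped ContDiff Topology ENNReal Manifold
open Set Metric Claims.C0499 Claimed.Agent.R315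

namespace Claimed.Agent.R314

/-! ## the dimension of the parameter set -/

/-- the parameter set of the folded contractions: some coordinate is `1`, at most `k` coordinates are non-zero. -/
def nvP (κ : Type) [Fintype κ] (k : ℕ) : Set (κ → ℝ) :=
  {a | (∃ j, a j = 1) ∧ (Finset.univ.filter fun j => a j ≠ 0).card ≤ k}

open Classical in
/-- affine parametrisation of the face `{a j0 = 1, a = 0 off S}`. -/
noncomputable def nvL {κ : Type} (S : Finset κ) (j0 : κ) (u : {i // i ∈ S.erase j0} → ℝ) : κ → ℝ :=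
  fun i => if h : i ∈ S.erase j0 then u ⟨i, h⟩ else if i = j0 then 1 else 0

theorem nvL_contDiff {κ : Type} [Fintype κ] (S : Finset κ) (j0 : κ) : ContDiff ℝ 1 (nvL S j0) := by
  classical
  refine contDiff_pi.2 fun i => ?_
  by_cases h : i ∈ S.erase j0
  · simp only [nvL, h, dif_pos]
    exact contDiff_apply ℝ ℝ (⟨i, h⟩ : {i // i ∈ S.erase j0})
  · simp only [nvL, dif_neg h]
    exact contDiff_const

theorem nv_dimH_P (κ : Type) [Fintype κ] (k : ℕ) : dimH (nvP κ k) ≤ ((k - 1 : ℕ) : ℝ≥0∞) := by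
  classical
  have hsub : nvP κ k ⊆ ⋃ p ∈ {p : Finset κ × κ | p.2 ∈ p.1 ∧ p.1.card ≤ k}, range (nvL p.1 p.2) := by
    rintro a ⟨⟨j0, hj0⟩, hk⟩
    have hm : j0 ∈ Finset.univ.filter fun j => a j ≠ 0 := by simp [hj0]
    refine mem_biUnion (x := (Finset.univ.filter fun j => a j ≠ 0, j0)) ⟨hm, hk⟩ ?_
    refine ⟨fun j => a j.1, ?_⟩
    funext i
    by_cases h : i ∈ (Finset.univ.filter fun j => a j ≠ 0).erase j0
    · simp only [nvL, h, dif_pos]
    · by_cases h' : i = j0
      · subst h'
        simp only [nvL, dif_neg h, if_true, hj0]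
      · simp only [nvL, dif_neg h, if_neg h']
        by_contra hne
        exact h (Finset.mem_erase.2 ⟨h', by simpa using fun h0 => hne h0.symm⟩)
  refine (dimH_mono hsub).trans ?_
  rw [dimH_bUnion (Set.toFinite _).countable]
  refine iSup₂_le fun p hp => ?_
  calc dimH (range (nvL p.1 p.2)) ≤ Module.finrank ℝ ({i // i ∈ p.1.erase p.2} → ℝ) :=
        (nvL_contDiff p.1 p.2).dimH_range_le
    _ = ((p.1.card - 1 : ℕ) : ℝ≥0∞) := by
        rw [Module.finrank_fintype_fun_eq_card, Fintype.card_coe, Finset.card_erase_of_mem hp.1]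
    _ ≤ ((k - 1 : ℕ) : ℝ≥0∞) := by
        have : p.1.card - 1 ≤ k - 1 := Nat.sub_le_sub_right hp.2 1
        exact_mod_cast this

theorem nv_dimH_P_lt (κ : Type) [Fintype κ] {k n : ℕ} (hk : k ≤ n) (hn : 1 ≤ n) :
    dimH (nvP κ k) < (n : ℝ≥0∞) := by
  refine (nv_dimH_P κ k).trans_lt ?_
  have : k - 1 < n := by omega
  exact_mod_cast this

theorem nvP_isClosed (κ : Type) [Fintype κ] (k : ℕ) : IsClosed (nvP κ k) := by
  classical
  have : nvP κ k = ⋃ p ∈ {p : Finset κ × κ | p.1.card ≤ k},
      ({a : κ → ℝ | a p.2 = 1} ∩ ⋂ i, {a : κ → ℝ | i ∉ p.1 → a i = 0}) := by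
    ext a
    simp only [nvP, mem_ofPred_eq, mem_iUnion, exists_prop, mem_inter_iff, mem_iInter, Prod.exists]
    constructor
    · rintro ⟨⟨j0, hj0⟩, hk⟩
      refine ⟨_, j0, hk, hj0, fun i hi => ?_⟩
      by_contra h
      exact hi (by simp [h])
    · rintro ⟨S, j0, hS, hj0, h2⟩
      refine ⟨⟨j0, hj0⟩, le_trans (Finset.card_le_card fun i hi => ?_) hS⟩
      by_contra h
      exact (Finset.mem_filter.1 hi).2 (h2 i h)
  rw [this]
  refine (Set.toFinite _).isClosed_biUnion fun p _ => ?_
  refine (isClosed_eq (continuous_apply p.2) continuous_const).inter (isClosed_iInter fun i => ?_)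
  by_cases hi : i ∈ p.1
  · simp [hi]
  · simpa [hi] using isClosed_eq (continuous_apply i) continuous_const

/-! ## smooth approximation -/

theorem nv_approx {W F : Type} [NormedAddCommGroup W] [NormedSpace ℝ W] [FiniteDimensional ℝ W]
    [NormedAddCommGroup F] [NormedSpace ℝ F] {K : Set W} (hK : IsClosed K) {f : W → F}
    (hf : ContinuousOn f K) {ε : ℝ} (hε : 0 < ε) :
    ∃ f' : W → F, ContDiff ℝ ∞ f' ∧ ∀ t ∈ K, ‖f' t - f t‖ < ε := by
  have h1 : ∀ y : W, Convex ℝ {c : F | y ∈ K → ‖c - f y‖ < ε} := by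
    intro y
    by_cases hy : y ∈ K
    · have : {c : F | y ∈ K → ‖c - f y‖ < ε} = ball (f y) ε := by
        ext c; simp [hy, dist_eq_norm]
      rw [this]; exact convex_ball _ _
    · have : {c : F | y ∈ K → ‖c - f y‖ < ε} = univ := by
        ext c; simp [hy]
      rw [this]; exact convex_univ
  have h2 : ∀ x : W, ∃ c : F, ∀ᶠ y in 𝓝 x, c ∈ {c : F | y ∈ K → ‖c - f y‖ < ε} := by
    intro x
    by_cases hx : x ∈ K
    · refine ⟨f x, ?_⟩
      have h1 : ∀ᶠ y in 𝓝[K] x, ‖f x - f y‖ < ε := by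
        have := (hf x hx).eventually (ball_mem_nhds (f x) hε)
        filter_upwards [this] with y hy
        rwa [dist_comm, dist_eq_norm] at hy
      rw [eventually_nhdsWithin_iff] at h1
      exact h1
    · refine ⟨0, ?_⟩
      filter_upwards [hK.isOpen_compl.mem_nhds hx] with y hy h
      exact absurd h hy
  obtain ⟨G, hG⟩ := exists_contMDiffMap_forall_mem_convex_of_local_const (n := (⊤ : ℕ∞)) 𝓘(ℝ, W)
    h1 h2
  exact ⟨G, G.contMDiff.contDiff, fun t ht => hG t ht⟩

/-! ## surgery in one chart -/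

/-- cutoff: `1` on `closedBall u0 ρ`, `0` off `ball u0 (2ρ)`. -/
noncomputable def nvChi {n : ℕ} (u0 : E n) (ρ : ℝ) (u : E n) : ℝ := max 0 (min 1 (2 - ‖u - u0‖ / ρ))

theorem nvChi_continuous {n : ℕ} (u0 : E n) (ρ : ℝ) : Continuous (nvChi u0 ρ) := by
  unfold nvChi
  fun_prop

theorem nvChi_mem {n : ℕ} (u0 : E n) (ρ : ℝ) (u : E n) : nvChi u0 ρ u ∈ Icc (0 : ℝ) 1 :=
  ⟨le_max_left _ _, max_le zero_le_one (min_le_left _ _)⟩

theorem nvChi_one {n : ℕ} {u0 : E n} {ρ : ℝ} (hρ : 0 < ρ) {u : E n} (hu : ‖u - u0‖ ≤ ρ) :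
    nvChi u0 ρ u = 1 := by
  have : ‖u - u0‖ / ρ ≤ 1 := (div_le_one hρ).2 hu
  unfold nvChi
  rw [min_eq_left (by linarith), max_eq_right zero_le_one]

theorem nvChi_zero {n : ℕ} {u0 : E n} {ρ : ℝ} (hρ : 0 < ρ) {u : E n} (hu : 2 * ρ ≤ ‖u - u0‖) :
    nvChi u0 ρ u = 0 := by
  have : 2 ≤ ‖u - u0‖ / ρ := (le_div_iff₀ hρ).2 hu
  unfold nvChi
  rw [min_eq_right (by linarith), max_eq_left (by linarith)]

/-- **surgery**: `F : T → Y` continuous, `Φ` a chart of `Y`; on the preimage of the chart ball of radius `2ρ` the map `a` is `ρ/2`-close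
to `Φ ∘ F` and misses `u1`, `|u1 - u0| < ρ/2`.  Then `F` can be changed inside the chart ball of radius `3ρ` so that it misses
`Φ.symm u1`. -/
theorem nv_cut {T Y : Type} [TopologicalSpace T] [TopologicalSpace Y] [T2Space Y] {n : ℕ}
    (Φ : OpenPartialHomeomorph Y (E n)) {u0 : E n} {ρ : ℝ} (hρ : 0 < ρ)
    (hU : closedBall u0 (3 * ρ) ⊆ Φ.target) {F : T → Y} (hF : Continuous F) {a : T → E n}
    (ha : ContinuousOn a (F ⁻¹' (Φ.symm '' closedBall u0 (2 * ρ))))
    (hclose : ∀ y, F y ∈ Φ.symm '' closedBall u0 (2 * ρ) → ‖a y - Φ (F y)‖ ≤ ρ / 2)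
    {u1 : E n} (hu1 : u1 ∈ ball u0 (ρ / 2))
    (hmiss : ∀ y, F y ∈ Φ.symm '' closedBall u0 (2 * ρ) → a y ≠ u1) :
    ∃ F' : T → Y, Continuous F' ∧
      (∀ y, F' y = F y ∨ (F y ∈ Φ.symm '' closedBall u0 (3 * ρ) ∧
        F' y ∈ Φ.symm '' closedBall u0 (3 * ρ))) ∧ ∀ y, F' y ≠ Φ.symm u1 := by
  classical
  have h23 : closedBall u0 (2 * ρ) ⊆ closedBall u0 (3 * ρ) := closedBall_subset_closedBall (by linarith)
  have hB2t : closedBall u0 (2 * ρ) ⊆ Φ.target := h23.trans hU
  set B2 : Set Y := Φ.symm '' closedBall u0 (2 * ρ) with hB2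
  have hB2c : IsClosed B2 :=
    ((isCompact_closedBall u0 (2 * ρ)).image_of_continuousOn
      (Φ.continuousOn_symm.mono hB2t)).isClosed
  have hO2 : IsOpen (Φ.symm '' ball u0 (2 * ρ)) :=
    Φ.isOpen_image_symm_of_subset_target isOpen_ball (ball_subset_closedBall.trans hB2t)
  -- the new point in the chart
  let w : T → E n := fun y => Φ (F y) + nvChi u0 ρ (Φ (F y)) • (a y - Φ (F y))
  have hΦB : ∀ y, F y ∈ B2 → F y ∈ Φ.source ∧ Φ (F y) ∈ closedBall u0 (2 * ρ) := by
    rintro y ⟨u, hu, he⟩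
    rw [← he]
    exact ⟨Φ.map_target (hB2t hu), by rwa [Φ.right_inv (hB2t hu)]⟩
  have hw : ∀ y, F y ∈ B2 → ‖w y - Φ (F y)‖ ≤ ρ / 2 := by
    intro y hy
    have h1 := nvChi_mem u0 ρ (Φ (F y))
    simp only [w, add_sub_cancel_left, norm_smul, Real.norm_eq_abs, abs_of_nonneg h1.1]
    calc _ ≤ 1 * ‖a y - Φ (F y)‖ := by gcongr; exact h1.2
      _ ≤ ρ / 2 := by rw [one_mul]; exact hclose y hy
  have hw3 : ∀ y, F y ∈ B2 → w y ∈ closedBall u0 (3 * ρ) := by
    intro y hy
    have h1 := (hΦB y hy).2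
    rw [mem_closedBall, dist_eq_norm] at h1 ⊢
    calc ‖w y - u0‖ = ‖(w y - Φ (F y)) + (Φ (F y) - u0)‖ := by congr 1; abel
      _ ≤ ‖w y - Φ (F y)‖ + ‖Φ (F y) - u0‖ := norm_add_le _ _
      _ ≤ ρ / 2 + 2 * ρ := add_le_add (hw y hy) h1
      _ ≤ 3 * ρ := by linarith
  refine ⟨fun y => if F y ∈ B2 then Φ.symm (w y) else F y, ?_, ?_, ?_⟩
  · -- continuity
    have hA : IsClosed (F ⁻¹' B2) := hB2c.preimage hF
    have hB : IsClosed (F ⁻¹' (Φ.symm '' ball u0 (2 * ρ))ᶜ) := hO2.isClosed_compl.preimage hF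
    have hcov : F ⁻¹' B2 ∪ F ⁻¹' (Φ.symm '' ball u0 (2 * ρ))ᶜ = univ := by
      ext y
      simp only [mem_union, mem_preimage, mem_compl_iff, mem_univ, iff_true]
      by_cases h : F y ∈ B2
      · exact Or.inl h
      · exact Or.inr fun h' => h (image_mono ball_subset_closedBall h')
    rw [← continuousOn_univ, ← hcov]
    refine ContinuousOn.union_of_isClosed ?_ ?_ hA hB
    · have hΦF : ContinuousOn (fun y => Φ (F y)) (F ⁻¹' B2) :=
        Φ.continuousOn.comp hF.continuousOn fun y hy => (hΦB y hy).1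
      have hwc : ContinuousOn w (F ⁻¹' B2) :=
        hΦF.add (((nvChi_continuous u0 ρ).comp_continuousOn hΦF).smul (ha.sub hΦF))
      have h1 : ContinuousOn (fun y => Φ.symm (w y)) (F ⁻¹' B2) :=
        Φ.continuousOn_symm.comp hwc fun y hy => hU (hw3 y hy)
      refine h1.congr fun y hy => ?_
      simp only [if_pos (show F y ∈ B2 from hy)]
    · refine hF.continuousOn.congr fun y hy => ?_
      by_cases h : F y ∈ B2
      · simp only [if_pos h]
        have h1 := hΦB y h
        have h2 : 2 * ρ ≤ ‖Φ (F y) - u0‖ := by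
          by_contra hlt
          push Not at hlt
          refine hy ⟨Φ (F y), ?_, Φ.left_inv h1.1⟩
          rwa [mem_ball, dist_eq_norm]
        simp only [w, nvChi_zero hρ h2, zero_smul, add_zero]
        exact Φ.left_inv h1.1
      · simp only [if_neg h]
  · intro y
    by_cases h : F y ∈ B2
    · right
      simp only [if_pos h]
      exact ⟨image_mono h23 h, mem_image_of_mem _ (hw3 y h)⟩
    · left
      simp only [if_neg h]
  · intro y
    have hu1' : ‖u1 - u0‖ < ρ / 2 := by rwa [mem_ball, dist_eq_norm] at hu1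
    have hu1t : u1 ∈ Φ.target := hU (by rw [mem_closedBall, dist_eq_norm]; linarith)
    by_cases h : F y ∈ B2
    · simp only [if_pos h]
      intro he
      have h1 : w y = u1 := Φ.symm.injOn (by simpa using hU (hw3 y h)) (by simpa using hu1t) he
      have h2 : ‖Φ (F y) - u0‖ ≤ ρ := by
        calc ‖Φ (F y) - u0‖ = ‖(u1 - u0) - (w y - Φ (F y))‖ := by rw [h1]; congr 1; abel
          _ ≤ ‖u1 - u0‖ + ‖w y - Φ (F y)‖ := norm_sub_le _ _
          _ ≤ ρ / 2 + ρ / 2 := add_le_add hu1'.le (hw y h)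
          _ = ρ := by ring
      have h3 : w y = a y := by
        simp only [w, nvChi_one hρ h2, one_smul]; abel
      exact hmiss y h (h3 ▸ h1)
    · simp only [if_neg h]
      intro he
      refine h ⟨u1, ?_, he.symm⟩
      rw [mem_closedBall, dist_eq_norm]; linarith

/-! ## the abstract theorem -/

/-- **NV, abstract form** (E3 + glue).  `Y` a space with a continuous proper distance function `d` and one chart of dimension `n`, on which every
continuous self map at bounded distance from the identity is onto.  Then no continuous self map `F` at bounded distance from the identity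
factors, on compact sets, through closed sets of Hausdorff dimension `< n`. -/
theorem nv_abs {Y : Type} [TopologicalSpace Y] [T2Space Y] {n : ℕ} (d : Y → Y → ℝ)
    (hdc : Continuous fun p : Y × Y => d p.1 p.2)
    (hsymm : ∀ x y, d x y = d y x) (htri : ∀ x y z, d x z ≤ d x y + d y z)
    (hprop : ∀ x R, IsCompact {y | d x y ≤ R})
    (Φ : OpenPartialHomeomorph Y (E n)) (hΦ : Φ.target.Nonempty)
    (hsurj : ∀ G : Y → Y, Continuous G → (∃ C, ∀ y, d y (G y) ≤ C) → Function.Surjective G)
    {F : Y → Y} (hF : Continuous F) {D : ℝ} (hFD : ∀ y, d y (F y) ≤ D)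
    (hfac : ∀ Om : Set Y, IsCompact Om → ∃ (κ : Type) (_ : Fintype κ) (K : Set (κ → ℝ))
      (Θ : Y → κ → ℝ) (g : (κ → ℝ) → Y), IsClosed K ∧ dimH K < (n : ℝ≥0∞) ∧ ContinuousOn Θ Om ∧
        ContinuousOn g K ∧ ∀ y ∈ Om, Θ y ∈ K ∧ F y = g (Θ y)) : False := by
  obtain ⟨u0, hu0⟩ := hΦ
  obtain ⟨r, hr, hrU⟩ := Metric.nhds_basis_closedBall.mem_iff.1 (Φ.open_target.mem_nhds hu0)
  set ρ : ℝ := r / 3 with hρdef
  have hρ : 0 < ρ := by positivity
  have hU : closedBall u0 (3 * ρ) ⊆ Φ.target := by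
    have : 3 * ρ = r := by rw [hρdef]; ring
    rwa [this]
  set p : Y := Φ.symm u0 with hp
  have h23 : closedBall u0 (2 * ρ) ⊆ closedBall u0 (3 * ρ) := closedBall_subset_closedBall (by linarith)
  have hB3 : IsCompact (Φ.symm '' closedBall u0 (3 * ρ)) :=
    (isCompact_closedBall u0 (3 * ρ)).image_of_continuousOn (Φ.continuousOn_symm.mono hU)
  have hB2c : IsClosed (Φ.symm '' closedBall u0 (2 * ρ)) :=
    ((isCompact_closedBall u0 (2 * ρ)).image_of_continuousOn
      (Φ.continuousOn_symm.mono (h23.trans hU))).isClosed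
  obtain ⟨DB, hDB⟩ : ∃ DB, ∀ z ∈ Φ.symm '' closedBall u0 (3 * ρ), d p z ≤ DB := by
    have hc : ContinuousOn (fun z => d p z) (Φ.symm '' closedBall u0 (3 * ρ)) :=
      (hdc.comp (Continuous.prodMk continuous_const continuous_id)).continuousOn
    obtain ⟨DB, hDB⟩ := (hB3.image_of_continuousOn hc).bddAbove
    exact ⟨DB, fun z hz => hDB (mem_image_of_mem _ hz)⟩
  obtain ⟨κ, _, K, Θ, g, hK, hdim, hΘ, hg, hfac⟩ := hfac {y | d p y ≤ DB + D} (hprop p _)
  have hOm : ∀ y, F y ∈ Φ.symm '' closedBall u0 (2 * ρ) → d p y ≤ DB + D := by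
    intro y hy
    calc d p y ≤ d p (F y) + d (F y) y := htri _ _ _
      _ ≤ DB + D := add_le_add (hDB _ (image_mono h23 hy)) (by rw [hsymm]; exact hFD y)
  -- smooth approximation of `Φ ∘ g`
  have hA2 : IsClosed (K ∩ g ⁻¹' (Φ.symm '' closedBall u0 (2 * ρ))) :=
    hg.preimage_isClosed_of_isClosed hK hB2c
  have hsrc : Φ.symm '' closedBall u0 (2 * ρ) ⊆ Φ.source := by
    rintro _ ⟨u, hu, rfl⟩
    exact Φ.map_target (hU (h23 hu))
  have hf : ContinuousOn (fun t => Φ (g t)) (K ∩ g ⁻¹' (Φ.symm '' closedBall u0 (2 * ρ))) :=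
    Φ.continuousOn.comp (hg.mono inter_subset_left) fun t ht => hsrc ht.2
  obtain ⟨f', hf', hfε⟩ := nv_approx hA2 hf (half_pos hρ)
  have hdense : Dense (f' '' K)ᶜ :=
    (hf'.of_le (by norm_num)).contDiffOn.dense_compl_image_of_dimH_lt_finrank (s := univ)
      convex_univ (subset_univ K) (by rwa [finrank_euclideanSpace_fin])
  obtain ⟨u1, hu1, hu1K⟩ := hdense.inter_open_nonempty (ball u0 (ρ / 2)) isOpen_ball
    ⟨u0, mem_ball_self (half_pos hρ)⟩
  obtain ⟨F', hF'c, hF'd, hF'm⟩ := nv_cut Φ hρ hU hF (a := fun y => f' (Θ y)) (u1 := u1)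
    (hf'.continuous.comp_continuousOn (hΘ.mono fun y hy => hOm y hy))
    (fun y hy => by
      obtain ⟨h1, h2⟩ := hfac y (hOm y hy)
      have h3 := hfε (Θ y) ⟨h1, by rw [mem_preimage, ← h2]; exact hy⟩
      rw [h2]
      exact h3.le)
    hu1
    (fun y hy he => hu1K ⟨Θ y, (hfac y (hOm y hy)).1, he⟩)
  obtain ⟨y, hy⟩ := hsurj F' hF'c ⟨max D (D + (DB + DB)), fun y => by
    rcases hF'd y with h | ⟨h1, h2⟩
    · rw [h]; exact (hFD y).trans (le_max_left _ _)
    · refine le_trans ?_ (le_max_right _ _)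
      calc d y (F' y) ≤ d y (F y) + d (F y) (F' y) := htri _ _ _
        _ ≤ d y (F y) + (d (F y) p + d p (F' y)) := by gcongr; exact htri _ _ _
        _ ≤ D + (DB + DB) := by
          gcongr
          · exact hFD y
          · rw [hsymm]; exact hDB _ h1
          · exact hDB _ h2⟩ (Φ.symm u1)
  exact hF'm y hy

/-! ## the chart of `↥X` given by a parametrisation -/

theorem nv_chart {n : ℕ} {V : Type} [NormedAddCommGroup V] [NormedSpace ℝ V] {X : Set V}
    {ψ : E n → V} {U : Set (E n)} (hp : IsParam X ψ U) (x0 : X) :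
    ∃ Φ : OpenPartialHomeomorph X (E n), Φ.target = U ∧ ∀ u ∈ U, (Φ.symm u : V) = ψ u := by
  classical
  refine ⟨{ toFun := fun y => Function.invFunOn ψ U y.1
            invFun := fun u => if h : u ∈ U then ⟨ψ u, if_mem hp h⟩ else x0
            source := {y | y.1 ∈ ψ '' U}
            target := U
            map_source' := fun y hy => if_inv_mem hy
            map_target' := fun u hu => by
              simp only [dif_pos hu]
              exact ⟨u, hu, rfl⟩
            left_inv' := fun y hy => by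
              simp only [dif_pos (if_inv_mem hy)]
              exact Subtype.ext (if_rightInv hy)
            right_inv' := fun u hu => by
              simp only [dif_pos hu]
              exact if_leftInv hp hu
            open_source := by
              obtain ⟨O, hO, he⟩ := if_image hp
              have : {y : X | y.1 ∈ ψ '' U} = Subtype.val ⁻¹' O := by
                ext y
                simp only [mem_ofPred_eq, he, mem_inter_iff, y.2, true_and, mem_preimage]
              rw [this]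
              exact hO.preimage continuous_subtype_val
            open_target := if_open hp
            continuousOn_toFun :=
              (if_contInv hp).comp continuous_subtype_val.continuousOn fun y hy => hy
            continuousOn_invFun := by
              rw [Topology.IsInducing.subtypeVal.continuousOn_iff]
              refine (if_continuousOn hp).congr fun u hu => ?_
              simp only [Function.comp, dif_pos hu] }, rfl, fun u hu => ?_⟩
  simp only [OpenPartialHomeomorph.coe_mk_symm, PartialEquiv.coe_symm_mk, dif_pos hu]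

/-! ## no bounded cover of multiplicity `≤ n` -/

theorem cnP_subset_nvP (k : ℕ) (J : Type) [Fintype J] : cnP k J ⊆ nvP J k :=
  fun _ ha => ⟨ha.2.1, ha.2.2 _ fun _ hj => (Finset.mem_filter.1 hj).2⟩

/-- **NV**: a uniformly contractible space with an `n`-dimensional chart, on which bounded continuous self maps are onto, has no bounded locally
finite open cover of multiplicity `≤ n`. -/
theorem nv_no_bcov {Y : Type} [TopologicalSpace Y] [T2Space Y] [NormalSpace Y] {n : ℕ} {d : Y → Y → ℝ}
    {Φc : ℝ → ℝ} {ι : Type} {U : ι → Set Y} {C : ℝ} (hd : IsPD d) (hu : UCtr d Φc)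
    (hU : BCov d U n C) (Φ : OpenPartialHomeomorph Y (E n)) (hΦ : Φ.target.Nonempty)
    (hsurj : ∀ G : Y → Y, Continuous G → (∃ C, ∀ y, d y (G y) ≤ C) → Function.Surjective G) :
    False := by
  have hn : 1 ≤ n := by
    obtain ⟨u, hu⟩ := hΦ
    obtain ⟨i, hi⟩ := hU.cover (Φ.symm u)
    simpa using hU.mult (Φ.symm u) {i} (by simpa using hi)
  haveI : Nonempty Y := ⟨Φ.symm hΦ.some⟩
  obtain ⟨D, F, hF, hFD, hfac⟩ := cn_factor hd hu hU
  refine nv_abs d hd.cont hd.symm hd.tri hd.proper Φ hΦ hsurj hF hFD fun Om hOm => ?_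
  obtain ⟨J, hJ, Θ, g, hΘ, hg, h⟩ := hfac Om hOm
  exact ⟨J, hJ, nvP J n, Θ, g, nvP_isClosed J n, nv_dimH_P_lt J le_rfl hn, hΘ.continuousOn,
    hg.continuousOn, fun y hy => ⟨cnP_subset_nvP n J (h y hy).2, (h y hy).1⟩⟩

end Claimed.Agent.R314
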