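import Claimed.Agent.R314.Iso
import Claimed.Agent.R314.T.AbsHom
import Claimed.Agent.R314.T.Contr
import Claimed.Agent.R314.T.Dg
import Claimed.Agent.R314.T.NV

/-!
# Row 314, block T (chief helper129): instantiation of the abstract layer at `Y = ↥X`, `d = rdist X g`

* `tb_pdist`, `tb_auc` : `UCont n X g → AUC (trd X g)` (from `contr_main`, `nretr_of_mfd`, `R314/Iso.lean`);
* `tb_dgp` : `DGP (trd X g)` from `dg_main`;
* `tb_lsurj`, `tb_hsurj`;
* `tb_isPD`, `tb_uctr` (adapters to `T/Cone.lean`), `tb_bcov` (from `HasCover`).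
-/

set_option autoImplicit false
open scoped ContDiff Topology
open Set Claims.C0499 Claimed.Agent.R315

namespace Claimed.Agent.R314

variable {n N : ℕ} {X : Set (E N)} {g : Ten (E N)}

/-- the Riemannian distance on the subtype. -/
noncomputable def trd (X : Set (E N)) (g : Ten (E N)) (a b : X) : ℝ := rdist X g a b

open Classical in
/-- corestriction of an ambient map to `↥X` (junk value `dflt` where the value is not in `X`). -/
noncomputable def tlift {A : Type} (X : Set (E N)) (f : A → E N) (dflt : A → X) (a : A) : X :=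
  if h : f a ∈ X then ⟨f a, h⟩ else dflt a

theorem tlift_val {A : Type} {f : A → E N} (dflt : A → X) {a : A} (h : f a ∈ X) :
    (tlift X f dflt a : E N) = f a := by
  simp only [tlift, dif_pos h]

theorem tlift_continuousOn {A : Type} [TopologicalSpace A] {f : A → E N} (dflt : A → X) {S : Set A}
    (hf : ContinuousOn f S) (hm : MapsTo f S X) : ContinuousOn (tlift X f dflt) S := by
  rw [Topology.IsInducing.subtypeVal.continuousOn_iff]
  exact hf.congr fun a ha => tlift_val dflt (hm ha)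

theorem tb_pdist (h : UCont n X g) : PDist (trd X g) where
  cont := by
    have h1 : Continuous fun p : X × X => ((p.1 : E N), (p.2 : E N)) :=
      (continuous_subtype_val.comp continuous_fst).prodMk (continuous_subtype_val.comp continuous_snd)
    exact h.rdist_continuousOn₂.comp_continuous h1 fun p => ⟨p.1.2, p.2.2⟩
  nonneg := fun x y => if_rdist_nonneg X g x y
  self := fun x => if_rdist_self g x.2
  symm := fun x y => if_rdist_symm X g x y
  tri := fun x y z => if_rdist_tri h.mfd h.isTen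
    (if_join_of_connected h.mfd h.conn.isPreconnected x.2 y.2)
    (if_join_of_connected h.mfd h.conn.isPreconnected y.2 z.2)
  proper := fun x R => by
    rw [Subtype.isCompact_iff]
    have : (Subtype.val '' {y : X | trd X g x y ≤ R}) = cb X g x R := by
      ext y
      constructor
      · rintro ⟨z, hz, rfl⟩
        exact ⟨z.2, hz⟩
      · rintro ⟨hy, hyR⟩
        exact ⟨⟨y, hy⟩, hyR, rfl⟩
    rw [this]
    exact h.isCompact_cb x.2 R

/-- an isometry of `(X, g)` as a homeomorphism of the subtype. -/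
theorem tb_homeo (h : UCont n X g) {γ : E N → E N} (hγ : IsIso n X g γ) :
    ∃ e : X ≃ₜ X, (∀ a : X, (e a : E N) = γ a) ∧ ∀ a b, trd X g (e a) (e b) = trd X g a b := by
  obtain ⟨h1, γ', h2, h3, h4⟩ := hγ
  have m1 := h1.mapsTo h.mfd
  have m2 := h2.mapsTo h.mfd
  have c1 : Continuous fun a : X => (⟨γ a, m1 a.2⟩ : X) :=
    Continuous.subtype_mk (continuousOn_iff_continuous_domRestrict.1 (h1.continuousOn h.mfd)) _
  have c2 : Continuous fun a : X => (⟨γ' a, m2 a.2⟩ : X) :=
    Continuous.subtype_mk (continuousOn_iff_continuous_domRestrict.1 (h2.continuousOn h.mfd)) _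
  refine ⟨{ toFun := fun a => ⟨γ a, m1 a.2⟩
            invFun := fun a => ⟨γ' a, m2 a.2⟩
            left_inv := fun a => Subtype.ext (h3 a a.2)
            right_inv := fun a => Subtype.ext (h4 a a.2)
            continuous_toFun := c1
            continuous_invFun := c2 }, fun a => rfl, fun a b => ?_⟩
  exact h.iso_rdist ⟨h1, γ', h2, h3, h4⟩ a.2 b.2

theorem tb_auc (h : UCont n X g) : AUC (trd X g) where
  pd := tb_pdist h
  contr := by
    obtain ⟨x0, hx0, hh, hc, hm, h0, h1⟩ := contr_main h.closed (nretr_of_mfd h.mfd h.closed) h.fill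
    let f : X × ℝ → E N := fun p => hh ((p.1 : E N), p.2)
    have hfc : ContinuousOn f (univ ×ˢ Icc (0 : ℝ) 1) := by
      have hj : Continuous fun p : X × ℝ => ((p.1 : E N), p.2) :=
        (continuous_subtype_val.comp continuous_fst).prodMk continuous_snd
      exact hc.comp hj.continuousOn fun p hp => ⟨p.1.2, hp.2⟩
    have hfm : MapsTo f (univ ×ˢ Icc (0 : ℝ) 1) X := fun p hp => hm ⟨p.1.2, hp.2⟩
    refine ⟨⟨x0, hx0⟩, tlift X f Prod.fst, tlift_continuousOn _ hfc hfm, fun y => ?_, fun y => ?_⟩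
    · apply Subtype.ext
      rw [tlift_val _ (hfm (x := (y, 0)) ⟨mem_univ _, by simp⟩)]
      exact h0 y y.2
    · apply Subtype.ext
      rw [tlift_val _ (hfm (x := (y, 1)) ⟨mem_univ _, by simp⟩)]
      exact h1 y y.2
  cocpt := by
    obtain ⟨K, hK, hKX, hcov⟩ := h.cocpt
    refine ⟨Subtype.val ⁻¹' K, ?_, fun y => ?_⟩
    · rw [Subtype.isCompact_iff, Subtype.image_preimage_coe, inter_eq_right.2 hKX]
      exact hK
    · obtain ⟨γ, hγ, hγK⟩ := hcov y y.2
      obtain ⟨e, he, hd⟩ := tb_homeo h hγ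
      exact ⟨e, hd, by rw [mem_preimage, he]; exact hγK⟩

open Classical in
theorem tb_dgp (h : UCont n X g) : DGP (trd X g) := by
  intro x0 R C3 H' hC3 hH' h0 hd q hq
  let j : E N × ℝ → X × ℝ := fun p => (if hp : p.1 ∈ X then ⟨p.1, hp⟩ else x0, p.2)
  have hj : ∀ (x : E N) (hx : x ∈ X) (t : ℝ), j (x, t) = (⟨x, hx⟩, t) := fun x hx t => by
    simp only [j, dif_pos hx]
  let H : E N × ℝ → E N := fun p => (H' (j p) : E N)
  have hjc : ContinuousOn j (X ×ˢ univ) := by
    refine ContinuousOn.prodMk ?_ continuous_snd.continuousOn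
    rw [Topology.IsInducing.subtypeVal.continuousOn_iff]
    refine continuous_fst.continuousOn.congr fun p hp => ?_
    simp only [Function.comp, dif_pos hp.1]
  have hjm : MapsTo j (cb X g x0 R ×ˢ Icc (0 : ℝ) 1) ({y | trd X g x0 y ≤ R} ×ˢ Icc (0 : ℝ) 1) := by
    rintro ⟨x, t⟩ ⟨hx, ht⟩
    rw [hj x hx.1 t]
    exact ⟨hx.2, ht⟩
  have hHc : ContinuousOn H (cb X g x0 R ×ˢ Icc (0 : ℝ) 1) :=
    continuous_subtype_val.comp_continuousOn
      (hH'.comp (hjc.mono fun p hp => ⟨hp.1.1, mem_univ _⟩) hjm)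
  obtain ⟨x, hx, hxq⟩ := dg_main h.mfd h.closed h.conn h.met h.proper x0.2 hC3 hHc
    (fun p _ => (H' (j p)).2)
    (fun x hx => by
      show (H' (j (x, 0)) : E N) = x
      rw [hj x hx.1, h0 ⟨x, hx.1⟩ hx.2])
    (fun x hx t ht => by
      show rdist X g x (H' (j (x, t)) : E N) ≤ C3
      rw [hj x hx.1]
      exact hd ⟨x, hx.1⟩ hx.2 t ht) q.2 hq
  refine ⟨⟨x, hx.1⟩, hx.2, Subtype.ext ?_⟩
  rw [← hxq]
  show _ = (H' (j (x, 1)) : E N)
  rw [hj x hx.1]

theorem tb_lsurj (h : UCont n X g) : LSurj (trd X g) := abs_lsurj (tb_auc h) (tb_dgp h)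

/-- global surjectivity on the subtype. -/
theorem tb_hsurj (h : UCont n X g) (G : X → X) (hG : Continuous G)
    (hb : ∃ C, ∀ y, trd X g y (G y) ≤ C) : Function.Surjective G := by
  obtain ⟨C, hC⟩ := hb
  obtain ⟨C3, hC3⟩ := tb_lsurj h C
  intro q
  obtain ⟨x, -, hx⟩ := hC3 q (C3 + 1) G hG.continuousOn (fun x _ => hC x) q
    (by rw [(tb_pdist h).self]; linarith)
  exact ⟨x, hx⟩

/-! ## adapters to `T/Cone.lean` -/

theorem PDist.isPD {Y : Type} [TopologicalSpace Y] {d : Y → Y → ℝ} (h : PDist d) : IsPD d :=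
  ⟨h.cont, h.self, h.symm, h.tri, h.proper⟩

theorem CFam.uctr {Y : Type} [TopologicalSpace Y] {d : Y → Y → ℝ} {κ : Y → Y × ℝ → Y} {e : Y → Y}
    (h : CFam d κ e) : ∃ Φ : ℝ → ℝ, UCtr d Φ := by
  choose ρ hρ using h.ctrl
  refine ⟨ρ, fun x => ⟨fun y s => κ x (y, s), h.cont x, h.zero x, ⟨e x, h.one x⟩,
    fun R y s hy hs => hρ R x y s hs hy⟩⟩

theorem tb_bcov {C : ℝ} {ι : Type} {U : ι → Set (E N)} (h1 : ∀ i, IsOpen (U i)) (h2 : X ⊆ ⋃ i, U i)
    (h3 : ∀ x ∈ X, ∃ W ∈ nhds x, {i | (U i ∩ W ∩ X).Nonempty}.Finite)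
    (h4 : ∀ x ∈ X, ∀ s : Finset ι, (∀ i ∈ s, x ∈ U i) → s.card ≤ n)
    (h5 : ∀ i, ∀ x ∈ X ∩ U i, ∀ y ∈ X ∩ U i, rdist X g x y ≤ C) :
    BCov (trd X g) (fun i => (Subtype.val ⁻¹' U i : Set X)) n C where
  isOpen := fun i => (h1 i).preimage continuous_subtype_val
  cover := fun y => by simpa using h2 y.2
  locFin := fun y => by
    obtain ⟨W, hW, hfin⟩ := h3 y y.2
    refine ⟨Subtype.val ⁻¹' W, continuous_subtype_val.continuousAt.preimage_mem_nhds hW,
      hfin.subset ?_⟩
    rintro i ⟨z, hz1, hz2⟩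
    exact ⟨z, ⟨hz1, hz2⟩, z.2⟩
  mult := fun y s hs => h4 y y.2 s hs
  diam := fun i y hy z hz => h5 i y ⟨y.2, hy⟩ z ⟨z.2, hz⟩

end Claimed.Agent.R314
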