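import Claimed.Agent.R314.Defs
import Claimed.Agent.R314.GE.Grid

/-!
# Row 314, block T, package EXT = GE (architect helper126; chief helper129): extension of maps into a weakly contractible neighbourhood retract

EXIT CONTRACT `ext_main`.  `S ⊆ E N` a neighbourhood retract with `Fill j S` for `j ≤ d`; `A ⊆ Z ⊆ ℝ^d`, `Z` compact, `A` closed:
every continuous `A → S` extends to `Z → S`.

PROOF.  Tietze: `f~ : ℝ^d → E N` continuous, `= f` on `A`.  `W = f~ ⁻¹' O` is an open neighbourhood of the compact set `A`; choose `δ` with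
`cthickening δ A ⊆ W`; `π ∘ f~` is defined there; `ge_extend_mesh` (helper153, `GE/Grid.lean`) extends it to the whole space.
-/

set_option autoImplicit false
open scoped ContDiff Topology
open Set Claimed.Agent.R315

namespace Claimed.Agent.R314

/-- `S` is a retract of an open neighbourhood. -/
def NRetr {Y : Type} [TopologicalSpace Y] (S : Set Y) : Prop :=
  ∃ (O : Set Y) (π : Y → Y), IsOpen O ∧ S ⊆ O ∧ ContinuousOn π O ∧ MapsTo π O S ∧ ∀ x ∈ S, π x = x

/-- **EXT**, global form: `A` compact; the extension is defined and continuous on the whole space. -/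
theorem ext_global {N d : ℕ} {S : Set (E N)} (hr : NRetr S) (hfill : ∀ j, j ≤ d → Fill j S)
    {A : Set (Fin d → ℝ)} (hA : IsCompact A)
    {f : (Fin d → ℝ) → E N} (hf : ContinuousOn f A) (hm : MapsTo f A S) :
    ∃ F : (Fin d → ℝ) → E N, Continuous F ∧ (∀ x, F x ∈ S) ∧ EqOn F f A := by
  obtain ⟨O, π, hO, hSO, hπ, hπm, hπid⟩ := hr
  -- Tietze
  obtain ⟨g, hg⟩ := ContinuousMap.exists_restrict_eq hA.isClosed (⟨A.domRestrict f, hf.domRestrict⟩ : C(A, E N))
  have hgf : ∀ x ∈ A, g x = f x := fun x hx => by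
    have := congrArg (fun φ : C(A, E N) => φ ⟨x, hx⟩) hg
    exact this
  have hW : IsOpen (g ⁻¹' O) := hO.preimage g.continuous
  have hAW : A ⊆ g ⁻¹' O := fun x hx => by
    show g x ∈ O
    rw [hgf x hx]
    exact hSO (hm hx)
  obtain ⟨δ, hδ, hsub⟩ := hA.exists_cthickening_subset_open hW hAW
  have hsub' : {x | ∃ y ∈ A, dist x y ≤ δ} ⊆ g ⁻¹' O := by
    rintro x ⟨y, hy, hxy⟩
    exact hsub (Metric.mem_cthickening_of_dist_le x y δ A hy hxy)
  have hS : ∀ j ≤ Fintype.card (Fin d), ge_Fill j S := fun j hj => hfill j (by simpa using hj)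
  obtain ⟨F, h1, h2, h3⟩ := ge_extend_mesh hS hδ A (f := fun x => π (g x))
    (hπ.comp g.continuous.continuousOn hsub') (hπm.comp hsub')
  refine ⟨F, h1, h2, fun x hx => ?_⟩
  rw [h3 hx]
  show π (g x) = f x
  rw [hgf x hx]
  exact hπid _ (hm hx)

/-- **EXT**. -/
theorem ext_main {N d : ℕ} {S : Set (E N)} (hr : NRetr S) (hfill : ∀ j, j ≤ d → Fill j S)
    {Z A : Set (Fin d → ℝ)} (hZ : IsCompact Z) (hA : IsClosed A) (hAZ : A ⊆ Z)
    {f : (Fin d → ℝ) → E N} (hf : ContinuousOn f A) (hm : MapsTo f A S) :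
    ∃ F : (Fin d → ℝ) → E N, ContinuousOn F Z ∧ MapsTo F Z S ∧ EqOn F f A := by
  obtain ⟨F, h1, h2, h3⟩ := ext_global hr hfill (hZ.of_isClosed_subset hA hAZ) hf hm
  exact ⟨F, h1.continuousOn, fun x _ => h2 x, h3⟩

end Claimed.Agent.R314
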