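import Claimed.Agent.R314.T.Ext
import Claimed.Agent.R314.Tub.Main

/-!
# Row 314, block T, package TUB (architect helper256; chief helper129): the nearest point retraction

EXIT CONTRACT `tub_main` (and its corollary `nretr_of_mfd`, proved).
PLAN.  Everything from ONE local estimate: for every `x0 ∈ X` there are `ρ, C` such that for `a, b ∈ X ∩ ball x0 ρ` and `ν` normal at `a`:
`|⟪ν, b - a⟫| ≤ C ‖ν‖ ‖b - a‖²` (Taylor of `ψ` + local bi-Lipschitz bound).  A point `y` with two nearest points `a ≠ b`, or `x + ν` with a nearest point `a ≠ x`, contradicts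
`|y-b|² = |y-a|² + 2⟪y-a, a-b⟫ + |a-b|²` when `|y - a| < 1/(2C)`.  `O = ⋃_{x0 ∈ X} ball x0 (small x0)`, `π` = nearest point (exists: `X` closed, finite dimension);
continuity from uniqueness + compactness; normality = first order condition along `t ↦ ψ (u + t a)`.
-/

set_option autoImplicit false
open scoped ContDiff Topology
open Set Claimed.Agent.R315

namespace Claimed.Agent.R314

/-- `ν` is normal to `X` at `x`. -/
def IsNor {N : ℕ} (n : ℕ) (X : Set (E N)) (x ν : E N) : Prop :=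
  ∀ v ∈ if_Tan n X x, inner ℝ ν v = 0

/-- tubular neighbourhood data. -/
structure Tube {N : ℕ} (n : ℕ) (X O : Set (E N)) (π : E N → E N) : Prop where
  isOpen : IsOpen O
  sub : X ⊆ O
  cont : ContinuousOn π O
  maps : MapsTo π O X
  fix : ∀ x ∈ X, π x = x
  nor : ∀ y ∈ O, IsNor n X (π y) (y - π y)
  unif : ∀ Q : Set (E N), IsCompact Q → Q ⊆ X → ∃ r : ℝ, 0 < r ∧ ∀ x ∈ Q, ∀ ν : E N,
    IsNor n X x ν → ‖ν‖ ≤ r → x + ν ∈ O ∧ π (x + ν) = x

/-- **TUB**. -/
theorem tub_main {n N : ℕ} {X : Set (E N)} (hM : IsMfd n X) (hc : IsClosed X) :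
    ∃ (O : Set (E N)) (π : E N → E N), Tube n X O π := by
  have hiff : ∀ x ν : E N, IsNor n X x ν ↔ tbPn n X x ν = ν := by
    intro x ν
    rw [tb_Pn_eq_iff]
    constructor
    · intro h w hw
      rw [real_inner_comm]
      exact h w hw
    · intro h w hw
      rw [real_inner_comm]
      exact h w hw
  obtain ⟨O, π, h1, h2, h3, h4, h5, _, h7, h8⟩ := tb_main hM hc
  refine ⟨O, π, h1, h2, h3, h4, h5, fun y hy => (hiff _ _).2 (h7 y hy), fun Q hQ hQX => ?_⟩
  obtain ⟨r, hr, h⟩ := h8 Q hQ hQX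
  exact ⟨r, hr, fun x hx ν hν hνr => h x hx ν ((hiff _ _).1 hν) hνr⟩

theorem nretr_of_mfd {n N : ℕ} {X : Set (E N)} (hM : IsMfd n X) (hc : IsClosed X) : NRetr X := by
  obtain ⟨O, π, h⟩ := tub_main hM hc
  exact ⟨O, π, h.isOpen, h.sub, h.cont, h.maps, h.fix⟩

end Claimed.Agent.R314
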